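import Vale.Agent.P268.T.H327.Geo
import Vale.Agent.P268.T.H545.HPAdm
import Vale.Agent.P268.T.H5.HPNear
import Vale.Agent.P268.T.DeltaR

/-!
# P268, topological half: the gluing conditions of the hairpin form
-/

set_option linter.unusedSectionVars false

namespace Vale.Agent.P268.T

open Set Filter Topology Metric

namespace H366

/-! ### The fold -/

section Fold

variable {V : Type*} [NormedAddCommGroup V] [InnerProductSpace ℝ V]

theorem foldw_smul {k : ℝ} (hk : 0 ≤ k) (z : ℝ) (ph y : V) :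
    foldw (k * z) ph (k • y) = k • foldw z ph y := by
  unfold foldw
  rw [real_inner_smul_left, abs_mul, abs_of_nonneg hk, smul_add, smul_smul]
  congr 2
  ring

theorem foldw_eq_add (z : ℝ) (ph y : V) : foldw z ph y = foldw 0 ph y + z • ph := by
  unfold foldw
  rw [add_assoc, ← add_smul, add_zero]

theorem norm_rfl' {ph : V} (hph : ‖ph‖ = 1) (y : V) : ‖rfl' ph y‖ = ‖y‖ := by
  have h : ‖rfl' ph y‖ ^ 2 = ‖y‖ ^ 2 := by
    unfold rfl'
    rw [norm_sub_sq_real, real_inner_smul_right, norm_smul, hph, Real.norm_eq_abs, mul_one, sq_abs]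
    ring
  rwa [sq_eq_sq₀ (norm_nonneg _) (norm_nonneg _)] at h

/-- On the side of the sheet `k`. -/
theorem foldw_of_nonneg {ph y : V} (h : 0 ≤ inner ℝ y ph) (z : ℝ) :
    foldw z ph y = y + z • ph := by
  unfold foldw
  rw [abs_of_nonneg h, sub_self, zero_add]

/-- On the side of the sheet `t`. -/
theorem foldw_of_nonpos {ph y : V} (h : inner ℝ y ph ≤ 0) (z : ℝ) :
    foldw z ph y = rfl' ph y + z • ph := by
  unfold foldw rfl'
  rw [abs_of_nonpos h]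
  module

theorem norm_foldw_zero {ph : V} (hph : ‖ph‖ = 1) (y : V) : ‖foldw 0 ph y‖ = ‖y‖ := by
  rcases le_total 0 (inner ℝ y ph) with h | h
  · rw [foldw_of_nonneg h, zero_smul, add_zero]
  · rw [foldw_of_nonpos h, zero_smul, add_zero, norm_rfl' hph]

theorem abs_norm_foldw_sub {ph : V} (hph : ‖ph‖ = 1) (z : ℝ) (y : V) :
    |‖foldw z ph y‖ - ‖y‖| ≤ |z| := by
  rw [← norm_foldw_zero hph y, foldw_eq_add z]
  refine (abs_norm_sub_norm_le _ _).trans ?_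
  rw [add_sub_cancel_left, norm_smul, hph, mul_one, Real.norm_eq_abs]

theorem foldw_zero_zero (ph : V) : foldw 0 ph (0 : V) = 0 := by
  unfold foldw
  rw [inner_zero_left]
  simp

/-- The reflection is self-adjoint. -/
theorem inner_rfl' (ph y n : V) : inner ℝ (rfl' ph y) n = inner ℝ y (rfl' ph n) := by
  unfold rfl'
  rw [inner_sub_left, inner_sub_right, real_inner_smul_left, real_inner_smul_right,
    real_inner_comm ph n]
  ring

theorem rfl'_rfl' {ph : V} (hph : ‖ph‖ = 1) (y : V) : rfl' ph (rfl' ph y) = y := by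
  unfold rfl'
  rw [inner_sub_left, real_inner_smul_left, real_inner_self_eq_norm_sq, hph]
  module

end Fold

/-! ### Homogeneity -/

section Hom

variable {V κ ι : Type*} [NormedAddCommGroup V] [InnerProductSpace ℝ V] [Fintype ι]
  [DecidableEq ι]

theorem wq_smul (i₀ : ι) (c : ℝ) {k : ℝ} (hk : 0 ≤ k) (s : ℝ × (ι → ℝ)) :
    wq i₀ c (k • s) = k * wq i₀ c s := by
  unfold wq
  rw [Prod.smul_fst, Prod.smul_snd, norm_smul, Real.norm_eq_abs, smul_eq_mul, abs_mul,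
    abs_of_nonneg hk, Pi.smul_apply, smul_eq_mul]
  have e : max (k * |s.1|) (2 * (k * ‖s.2‖)) = k * max |s.1| (2 * ‖s.2‖) := by
    rw [mul_max_of_nonneg _ _ hk]
    congr 1
    ring
  rw [e]
  ring

theorem norm_smul' {k : ℝ} (hk : 0 ≤ k) (s : ℝ × (ι → ℝ)) : ‖k • s‖ = k * ‖s‖ := by
  rw [norm_smul, Real.norm_eq_abs, abs_of_nonneg hk]

theorem dep_smul (i₀ : ι) (K : ℝ) (D : HData κ (ι → ℝ) V) {k : ℝ} (hk : 0 ≤ k)
    (s : ℝ × (ι → ℝ)) : D.dep i₀ K (k • s) = k * D.dep i₀ K s := by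
  unfold HData.dep
  rw [wq_smul i₀ _ hk, norm_smul' hk, mul_max_of_nonneg _ _ hk]
  congr 1 <;> ring

theorem sdom_smul (M : ℝ) {k : ℝ} (hk : 0 ≤ k) (s : ℝ × (ι → ℝ)) :
    M * ((k • s).1 - ‖(k • s).2‖ / 2) = k * (M * (s.1 - ‖s.2‖ / 2)) := by
  rw [Prod.smul_fst, Prod.smul_snd, norm_smul, Real.norm_eq_abs, smul_eq_mul, abs_of_nonneg hk]
  ring

theorem dom_smul (i₀ : ι) (M K : ℝ) (D : HData κ (ι → ℝ) V) (a : κ ⊕ Bool) {k : ℝ} (hk : 0 ≤ k)
    (s : ℝ × (ι → ℝ)) : D.dom i₀ M K a (k • s) = k * D.dom i₀ M K a s := by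
  rcases a with a | a
  · exact sdom_smul M hk s
  · unfold HData.dom
    dsimp only
    rw [sdom_smul M hk, wq_smul i₀ _ hk, norm_smul' hk, mul_min_of_nonneg _ _ hk]
    congr 1
    ring

variable {T : Type*} {i₀ : ι} {e : V} {ε R M K : T → ℝ} {D : T → HData κ (ι → ℝ) V}

theorem hw_smul (τ : T) (a : HIx κ) {k : ℝ} (hk : 0 ≤ k) (x : (ℝ × (ι → ℝ)) × V) :
    (hplates i₀ e ε R M K D).w τ a (k • x) = k • (hplates i₀ e ε R M K D).w τ a x := by
  rcases a with _ | a | _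
  · rfl
  · show (k • x).2 - ‖(k • x).1‖ • (D τ).cen i₀ a (kap (k • x).1) =
      k • (x.2 - ‖x.1‖ • (D τ).cen i₀ a (kap x.1))
    rcases hk.eq_or_lt with rfl | hk'
    · simp
    · rw [Prod.smul_fst, Prod.smul_snd, kap_smul hk', norm_smul' hk, smul_sub, smul_smul]
  · show foldw ((D τ).dep i₀ (K τ) (k • x).1) ((D τ).ph (wl i₀ (D τ).c (kap (k • x).1)))
        ((k • x).2 - ‖(k • x).1‖ • (D τ).m (wl i₀ (D τ).c (kap (k • x).1))) =
      k • foldw ((D τ).dep i₀ (K τ) x.1) ((D τ).ph (wl i₀ (D τ).c (kap x.1)))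
        (x.2 - ‖x.1‖ • (D τ).m (wl i₀ (D τ).c (kap x.1)))
    rw [Prod.smul_fst, Prod.smul_snd, dep_smul i₀ _ _ hk, norm_smul' hk]
    rcases hk.eq_or_lt with rfl | hk'
    · rw [zero_mul, zero_mul, zero_smul, zero_smul, zero_smul, sub_zero, foldw_zero_zero, zero_smul]
    · rw [kap_smul hk', ← foldw_smul hk, smul_sub, smul_smul]

theorem hν_smul (τ : T) (a : HIx κ) {k : ℝ} (hk : 0 < k) (x : (ℝ × (ι → ℝ)) × V) :
    (hplates i₀ e ε R M K D).ν τ a (k • x) = (hplates i₀ e ε R M K D).ν τ a x := by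
  rcases a with _ | a | _
  · rfl
  · show (D τ).nor i₀ a (kap (k • x).1) = (D τ).nor i₀ a (kap x.1)
    rw [Prod.smul_fst, kap_smul hk]
  · show (D τ).nw (wl i₀ (D τ).c (kap (k • x).1)) = (D τ).nw (wl i₀ (D τ).c (kap x.1))
    rw [Prod.smul_fst, kap_smul hk]

theorem hr_smul (τ : T) (a : HIx κ) {k : ℝ} (hk : 0 ≤ k) (x : (ℝ × (ι → ℝ)) × V) :
    (hplates i₀ e ε R M K D).r τ a (k • x) = k * (hplates i₀ e ε R M K D).r τ a x := by
  rcases a with _ | a | _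
  · show R τ * ‖(k • x).1‖ = k * (R τ * ‖x.1‖)
    rw [Prod.smul_fst, norm_smul' hk]
    ring
  · show ε τ * ‖(k • x).1‖ = k * (ε τ * ‖x.1‖)
    rw [Prod.smul_fst, norm_smul' hk]
    ring
  · show ε τ * ‖(k • x).1‖ = k * (ε τ * ‖x.1‖)
    rw [Prod.smul_fst, norm_smul' hk]
    ring

theorem hσ_smul (τ : T) (a : HIx κ) {k : ℝ} (hk : 0 ≤ k) (x : (ℝ × (ι → ℝ)) × V) :
    (hplates i₀ e ε R M K D).σ τ a (k • x) = k * (hplates i₀ e ε R M K D).σ τ a x := by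
  rcases a with _ | a | _
  · show M τ * (‖(k • x).1.2‖ - |(k • x).1.1|) = k * (M τ * (‖x.1.2‖ - |x.1.1|))
    rw [Prod.smul_fst, Prod.smul_fst, Prod.smul_snd, norm_smul, Real.norm_eq_abs, smul_eq_mul,
      abs_mul, abs_of_nonneg hk]
    ring
  · exact dom_smul i₀ (M τ) (K τ) (D τ) a hk x.1
  · show min (M τ * ((k • x).1.1 - ‖(k • x).1.2‖ / 2))
        (M τ * (K τ * wq i₀ (D τ).c (k • x).1 + 4 * (D τ).r0 * ‖(k • x).1‖)) =
      k * min (M τ * (x.1.1 - ‖x.1.2‖ / 2))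
        (M τ * (K τ * wq i₀ (D τ).c x.1 + 4 * (D τ).r0 * ‖x.1‖))
    rw [Prod.smul_fst, sdom_smul (M τ) hk, wq_smul i₀ _ hk, norm_smul' hk,
      mul_min_of_nonneg _ _ hk]
    congr 1
    ring

end Hom

/-! ### Continuity -/

section Cont

variable {T V κ ι : Type*} [TopologicalSpace T] [NormedAddCommGroup V] [InnerProductSpace ℝ V]
  [Fintype ι] [DecidableEq ι] {s : Set T} {i₀ : ι} {e : V} {ε R M K : T → ℝ}
  {D : T → HData κ (ι → ℝ) V}

/-- A parameter as a function of `(τ, x)`. -/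
theorem contOn_par {f : T → ℝ} (hf : ContinuousOn f s) (S : Set ((ℝ × (ι → ℝ)) × V)) :
    ContinuousOn (fun p : T × ((ℝ × (ι → ℝ)) × V) => f p.1) (s ×ˢ S) :=
  hf.comp continuousOn_fst fun _ hp => hp.1

theorem contOn_nrm (S : Set ((ℝ × (ι → ℝ)) × V)) :
    ContinuousOn (fun p : T × ((ℝ × (ι → ℝ)) × V) => ‖p.2.1‖) (s ×ˢ S) := by
  fun_prop

theorem contOn_wq (h : HPFam s i₀ e D) (S : Set ((ℝ × (ι → ℝ)) × V)) :
    ContinuousOn (fun p : T × ((ℝ × (ι → ℝ)) × V) => wq i₀ (D p.1).c p.2.1) (s ×ˢ S) := by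
  have h1 := contOn_par (V := V) (ι := ι) h.cc S
  have h2 : ContinuousOn (fun p : T × ((ℝ × (ι → ℝ)) × V) => p.2.1.2 i₀) (s ×ˢ S) := by fun_prop
  have h3 : ContinuousOn (fun p : T × ((ℝ × (ι → ℝ)) × V) =>
      max |p.2.1.1| (2 * ‖p.2.1.2‖) / 2) (s ×ˢ S) := by fun_prop
  exact h2.sub (h1.mul h3)

theorem contOn_dep (cK : ContinuousOn K s) (h : HPFam s i₀ e D) (S : Set ((ℝ × (ι → ℝ)) × V)) :
    ContinuousOn (fun p : T × ((ℝ × (ι → ℝ)) × V) => (D p.1).dep i₀ (K p.1) p.2.1) (s ×ˢ S) :=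
  ContinuousOn.sup ((contOn_par cK S).mul (contOn_wq h S))
    (((contOn_par h.cr S).mul (contOn_nrm S)).neg)

theorem contOn_sdom (cM : ContinuousOn M s) (S : Set ((ℝ × (ι → ℝ)) × V)) :
    ContinuousOn (fun p : T × ((ℝ × (ι → ℝ)) × V) => M p.1 * (p.2.1.1 - ‖p.2.1.2‖ / 2))
      (s ×ˢ S) := by
  have h1 : ContinuousOn (fun p : T × ((ℝ × (ι → ℝ)) × V) => p.2.1.1 - ‖p.2.1.2‖ / 2)
    (s ×ˢ S) := by fun_prop
  exact (contOn_par cM S).mul h1

/-- The domain functions are continuous. -/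
theorem contOn_σ (cM : ContinuousOn M s) (cK : ContinuousOn K s) (h : HPFam s i₀ e D)
    (a : HIx κ) (S : Set ((ℝ × (ι → ℝ)) × V)) :
    ContinuousOn (fun p : T × ((ℝ × (ι → ℝ)) × V) => (hplates i₀ e ε R M K D).σ p.1 a p.2)
      (s ×ˢ S) := by
  have e1 := contOn_par (V := V) (ι := ι) cM S
  have e2 := contOn_par (V := V) (ι := ι) cK S
  have e3 := contOn_par (V := V) (ι := ι) h.cr S
  have e4 := contOn_nrm (T := T) (V := V) (ι := ι) (s := s) S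
  have e5 := contOn_wq h S
  have e6 := contOn_sdom (V := V) (ι := ι) cM S
  rcases a with _ | a | _
  · have c1 : ContinuousOn (fun p : T × ((ℝ × (ι → ℝ)) × V) => ‖p.2.1.2‖ - |p.2.1.1|)
      (s ×ˢ S) := by fun_prop
    exact e1.mul c1
  · rcases a with a | a
    · exact e6
    · exact ContinuousOn.inf e6 (e1.mul ((e2.mul e5).neg.sub ((continuousOn_const.mul e3).mul e4)))
  · exact ContinuousOn.inf e6 (e1.mul ((e2.mul e5).add ((continuousOn_const.mul e3).mul e4)))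

/-- The radii are continuous. -/
theorem contOn_r (cε : ContinuousOn ε s) (cR : ContinuousOn R s) (a : HIx κ)
    (S : Set ((ℝ × (ι → ℝ)) × V)) :
    ContinuousOn (fun p : T × ((ℝ × (ι → ℝ)) × V) => (hplates i₀ e ε R M K D).r p.1 a p.2)
      (s ×ˢ S) := by
  rcases a with _ | a | _
  · exact (contOn_par cR S).mul (contOn_nrm S)
  · exact (contOn_par cε S).mul (contOn_nrm S)
  · exact (contOn_par cε S).mul (contOn_nrm S)

/-- Data in the chart, off the centre. -/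
theorem contOn_kap {f : T × (ι → ℝ) → V} (hf : ContinuousOn f (s ×ˢ closedBall 0 1)) :
    ContinuousOn (fun p : T × ((ℝ × (ι → ℝ)) × V) => f (p.1, kap p.2.1))
      (s ×ˢ {x | ‖x.1‖ ≠ 0}) := by
  rintro ⟨τ₀, x₀⟩ ⟨hτ₀, hx₀⟩
  exact cwa_data hf _ hτ₀ (norm_ne_zero_iff.mp hx₀)

theorem ph_norm (h : HPFam s i₀ e D) {τ : T} (hτ : τ ∈ s) (y : ℝ × (ι → ℝ)) :
    ‖(D τ).ph (wl i₀ (D τ).c (kap y))‖ = 1 :=
  h.nph τ hτ _ (norm_wl_le (norm_kap_le y) (h.hc τ hτ).le) (wl_apply_self _ _ _)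

/-- The normals have norm one. -/
theorem hν_norm (he : ‖e‖ = 1) (h : HPFam s i₀ e D) {τ : T} (hτ : τ ∈ s) (a : HIx κ)
    (x : (ℝ × (ι → ℝ)) × V) : ‖(hplates i₀ e ε R M K D).ν τ a x‖ = 1 := by
  rcases a with _ | a | _
  · exact he
  · have h1 : ‖lf i₀ (D τ).c (kap x.1)‖ ≤ 1 := norm_lf_le (norm_kap_le _) (h.hc τ hτ).le
    have h2 : lf i₀ (D τ).c (kap x.1) i₀ ≤ (D τ).c := lf_apply_self_le _ _ _
    rcases a with a | (_ | _)
    · exact h.oth.nn τ hτ a _ (kap_mem _)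
    · exact h.nnt τ hτ _ h1 h2
    · exact h.nnk τ hτ _ h1 h2
  · exact h.nnw τ hτ _ (norm_wl_le (norm_kap_le _) (h.hc τ hτ).le) (wl_apply_self _ _ _)

/-- The normals are continuous off the centre. -/
theorem contOn_ν (h : HPFam s i₀ e D) (a : HIx κ) :
    ContinuousOn (fun p : T × ((ℝ × (ι → ℝ)) × V) => (hplates i₀ e ε R M K D).ν p.1 a p.2)
      (s ×ˢ {x | ‖x.1‖ ≠ 0}) := by
  rcases a with _ | a | _
  · exact continuousOn_const
  · exact contOn_kap (h.continuousOn_nor a)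
  · exact contOn_kap h.continuousOn_nw

theorem contOn_cen (cR : ContinuousOn R s) (h : HPFam s i₀ e D)
    (hA : ∀ τ ∈ s, HAdm i₀ (ε τ) (R τ) (M τ) (K τ) (D τ)) (a : κ ⊕ Bool) :
    ContinuousOn (fun p : T × ((ℝ × (ι → ℝ)) × V) => ‖p.2.1‖ • (D p.1).cen i₀ a (kap p.2.1))
      (s ×ˢ univ) :=
  continuousOn_centre (f := fun q => (D q.1).cen i₀ a q.2) (h.continuousOn_cen a) cR
    (fun t ht x hx => by
      have h1 := (hA t ht).hb a x hx
      have h2 := (hA t ht).hε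
      show ‖(D t).cen i₀ a x‖ ≤ R t
      linarith)

theorem contOn_m (cR : ContinuousOn R s) (h : HPFam s i₀ e D)
    (hA : ∀ τ ∈ s, HAdm i₀ (ε τ) (R τ) (M τ) (K τ) (D τ)) :
    ContinuousOn (fun p : T × ((ℝ × (ι → ℝ)) × V) =>
      ‖p.2.1‖ • (D p.1).m (wl i₀ (D p.1).c (kap p.2.1))) (s ×ˢ univ) :=
  continuousOn_centre (f := fun q => (D q.1).m (wl i₀ (D q.1).c q.2)) h.continuousOn_m cR
    (fun t ht x hx => by
      have h0 := norm_wl_le (i₀ := i₀) (mem_closedBall_zero_iff.mp hx) (h.hc t ht).le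
      have h1 := (hA t ht).hm _ (mem_closedBall_zero_iff.mpr h0) (wl_apply_self _ _ _)
      have h2 := h.hr t ht
      show ‖(D t).m (wl i₀ (D t).c x)‖ ≤ R t
      linarith)

/-- `w` is continuous off the centre. -/
theorem contOn_w (cR : ContinuousOn R s) (cK : ContinuousOn K s) (h : HPFam s i₀ e D)
    (hA : ∀ τ ∈ s, HAdm i₀ (ε τ) (R τ) (M τ) (K τ) (D τ)) (a : HIx κ) :
    ContinuousOn (fun p : T × ((ℝ × (ι → ℝ)) × V) => (hplates i₀ e ε R M K D).w p.1 a p.2)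
      (s ×ˢ {x | ‖x.1‖ ≠ 0}) := by
  have hsub : s ×ˢ {x : (ℝ × (ι → ℝ)) × V | ‖x.1‖ ≠ 0} ⊆ s ×ˢ univ :=
    prod_mono Subset.rfl (subset_univ _)
  have c2 : ContinuousOn (fun p : T × ((ℝ × (ι → ℝ)) × V) => p.2.2)
    (s ×ˢ {x | ‖x.1‖ ≠ 0}) := by fun_prop
  rcases a with _ | a | _
  · exact c2
  · exact c2.sub ((contOn_cen cR h hA a).mono hsub)
  · have c3 := c2.sub ((contOn_m cR h hA).mono hsub)
    have c4 := contOn_kap (V := V) h.continuousOn_ph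
    have c5 := contOn_dep cK h {x : (ℝ × (ι → ℝ)) × V | ‖x.1‖ ≠ 0}
    have c6 := c3.inner (𝕜 := ℝ) c4
    exact c3.add ((((c6.abs).sub c6).add c5).smul c4)

/-- `‖w‖` is continuous. -/
theorem contOn_norm_w (cR : ContinuousOn R s) (cK : ContinuousOn K s) (h : HPFam s i₀ e D)
    (hA : ∀ τ ∈ s, HAdm i₀ (ε τ) (R τ) (M τ) (K τ) (D τ)) (a : HIx κ) :
    ContinuousOn (fun p : T × ((ℝ × (ι → ℝ)) × V) => ‖(hplates i₀ e ε R M K D).w p.1 a p.2‖)
      (s ×ˢ univ) := by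
  have c2 : ContinuousOn (fun p : T × ((ℝ × (ι → ℝ)) × V) => p.2.2) (s ×ˢ univ) := by fun_prop
  rcases a with _ | a | _
  · exact c2.norm
  · exact (c2.sub (contOn_cen cR h hA a)).norm
  · have c3 := c2.sub (contOn_m cR h hA)
    rintro ⟨τ₀, x₀⟩ ⟨hτ₀, hx₀⟩
    have hτ₀ : τ₀ ∈ s := hτ₀
    by_cases hx : x₀.1 = 0
    · have hd := contOn_dep cK h univ (τ₀, x₀) ⟨hτ₀, mem_univ _⟩
      have hd0 : (D τ₀).dep i₀ (K τ₀) x₀.1 = 0 := by
        rw [hx]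
        have := dep_smul i₀ (K τ₀) (D τ₀) le_rfl (0 : ℝ × (ι → ℝ))
        rwa [zero_smul, zero_mul] at this
      have hy := (c3 (τ₀, x₀) ⟨hτ₀, mem_univ _⟩).norm
      have h0 : ‖(hplates i₀ e ε R M K D).w τ₀ .fold x₀‖ =
          ‖x₀.2 - ‖x₀.1‖ • (D τ₀).m (wl i₀ (D τ₀).c (kap x₀.1))‖ := by
        show ‖foldw ((D τ₀).dep i₀ (K τ₀) x₀.1) _ _‖ = _
        rw [hd0, norm_foldw_zero (ph_norm h hτ₀ _)]
      have hz : Tendsto (fun p : T × ((ℝ × (ι → ℝ)) × V) =>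
          ‖(hplates i₀ e ε R M K D).w p.1 .fold p.2‖ -
            ‖p.2.2 - ‖p.2.1‖ • (D p.1).m (wl i₀ (D p.1).c (kap p.2.1))‖)
          (𝓝[s ×ˢ univ] (τ₀, x₀)) (𝓝 0) := by
        have hd1 : Tendsto (fun p : T × ((ℝ × (ι → ℝ)) × V) => |(D p.1).dep i₀ (K p.1) p.2.1|)
            (𝓝[s ×ˢ univ] (τ₀, x₀)) (𝓝 0) := by
          have h5 : Tendsto (fun p : T × ((ℝ × (ι → ℝ)) × V) => |(D p.1).dep i₀ (K p.1) p.2.1|)
            (𝓝[s ×ˢ univ] (τ₀, x₀)) (𝓝 |(D τ₀).dep i₀ (K τ₀) x₀.1|) := hd.abs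
          rwa [hd0, abs_zero] at h5
        refine squeeze_zero_norm' ?_ hd1
        filter_upwards [self_mem_nhdsWithin] with p hp
        rw [Real.norm_eq_abs]
        exact abs_norm_foldw_sub (ph_norm h hp.1 _) _ _
      have h6 := hz.add hy
      rw [zero_add] at h6
      show Tendsto _ _ (𝓝 ‖(hplates i₀ e ε R M K D).w τ₀ .fold x₀‖)
      rw [h0]
      exact h6.congr fun p => sub_add_cancel _ _
    · have hx' : ‖x₀.1‖ ≠ 0 := norm_ne_zero_iff.mpr hx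
      have h1 := (contOn_w cR cK h hA .fold (τ₀, x₀) ⟨hτ₀, hx'⟩).norm
      refine h1.mono_of_mem_nhdsWithin ?_
      have h2 : {p : T × ((ℝ × (ι → ℝ)) × V) | ‖p.2.1‖ ≠ 0} ∈ 𝓝 (τ₀, x₀) := by
        have h3 : Continuous fun p : T × ((ℝ × (ι → ℝ)) × V) => ‖p.2.1‖ := by fun_prop
        exact (isOpen_ne_fun h3 continuous_const).mem_nhds hx'
      filter_upwards [self_mem_nhdsWithin, mem_nhdsWithin_of_mem_nhds h2] with p hp hp'
      exact ⟨hp.1, hp'⟩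

end Cont

/-! ### Separation -/

section Sep

variable {T V κ ι : Type*} [TopologicalSpace T] [NormedAddCommGroup V] [InnerProductSpace ℝ V]
  [Fintype ι] [DecidableEq ι] {s : Set T} {i₀ : ι} {e : V} {ε R M K : T → ℝ}
  {D : T → HData κ (ι → ℝ) V} {τ : T} {x : (ℝ × (ι → ℝ)) × V}

theorem la_pos_of_k' (hA : HAdm i₀ (ε τ) (R τ) (M τ) (K τ) (D τ)) (hs : x.1 ≠ 0)
    (hph : ‖(D τ).ph (wl i₀ (D τ).c (kap x.1))‖ = 1)
    (hz : -(5 * (D τ).r0 * ‖x.1‖) ≤ K τ * wq i₀ (D τ).c x.1)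
    (hz' : K τ * wq i₀ (D τ).c x.1 ≤ -((D τ).r0 * ‖x.1‖))
    (h : -(ε τ * ‖x.1‖) < (hplates i₀ e ε R M K D).tp τ (.sh (.inr true)) x) :
    0 < (D τ).la i₀ x := by
  obtain ⟨-, h2, -, -, -⟩ := zone_facts hA hs hz hz'
  have hg : 0 < ‖x.1‖ := norm_pos_iff.mpr hs
  rw [tp_sh, h2] at h
  unfold HData.la
  set ph := (D τ).ph (wl i₀ (D τ).c (kap x.1)) with hphd
  set m := (D τ).m (wl i₀ (D τ).c (kap x.1)) with hmd
  have h3 : |inner ℝ (x.2 - ‖x.1‖ • (m + (D τ).r0 • ph)) ph| ≤ 2 * (ε τ * ‖x.1‖) := by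
    refine (abs_real_inner_le_norm _ _).trans ?_
    rw [hph, mul_one]
    linarith
  have e1 : inner ℝ (x.2 - ‖x.1‖ • (m + (D τ).r0 • ph)) ph =
      inner ℝ (x.2 - ‖x.1‖ • m) ph - ‖x.1‖ * (D τ).r0 := by
    have e2 : x.2 - ‖x.1‖ • (m + (D τ).r0 • ph) = (x.2 - ‖x.1‖ • m) - (‖x.1‖ * (D τ).r0) • ph := by
      module
    rw [e2, inner_sub_left, real_inner_smul_left, real_inner_self_eq_norm_sq, hph]
    ring
  rw [e1] at h3
  have h4 := (abs_le.mp h3).1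
  have h5 : 8 * ε τ * ‖x.1‖ ≤ (D τ).r0 * ‖x.1‖ := mul_le_mul_of_nonneg_right hA.hr hg.le
  have h6 := mul_pos hA.hε hg
  linarith

theorem la_neg_of_t' (hA : HAdm i₀ (ε τ) (R τ) (M τ) (K τ) (D τ)) (hs : x.1 ≠ 0)
    (hph : ‖(D τ).ph (wl i₀ (D τ).c (kap x.1))‖ = 1)
    (hz : -(5 * (D τ).r0 * ‖x.1‖) ≤ K τ * wq i₀ (D τ).c x.1)
    (hz' : K τ * wq i₀ (D τ).c x.1 ≤ -((D τ).r0 * ‖x.1‖))
    (h : -(ε τ * ‖x.1‖) < (hplates i₀ e ε R M K D).tp τ (.sh (.inr false)) x) :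
    (D τ).la i₀ x < 0 := by
  obtain ⟨-, -, h2, -, -⟩ := zone_facts hA hs hz hz'
  have hg : 0 < ‖x.1‖ := norm_pos_iff.mpr hs
  rw [tp_sh, h2] at h
  unfold HData.la
  set ph := (D τ).ph (wl i₀ (D τ).c (kap x.1)) with hphd
  set m := (D τ).m (wl i₀ (D τ).c (kap x.1)) with hmd
  have h3 : |inner ℝ (x.2 - ‖x.1‖ • (m - (D τ).r0 • ph)) ph| ≤ 2 * (ε τ * ‖x.1‖) := by
    refine (abs_real_inner_le_norm _ _).trans ?_
    rw [hph, mul_one]
    linarith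
  have e1 : inner ℝ (x.2 - ‖x.1‖ • (m - (D τ).r0 • ph)) ph =
      inner ℝ (x.2 - ‖x.1‖ • m) ph + ‖x.1‖ * (D τ).r0 := by
    have e2 : x.2 - ‖x.1‖ • (m - (D τ).r0 • ph) = (x.2 - ‖x.1‖ • m) + (‖x.1‖ * (D τ).r0) • ph := by
      module
    rw [e2, inner_add_left, real_inner_smul_left, real_inner_self_eq_norm_sq, hph]
    ring
  rw [e1] at h3
  have h4 := (abs_le.mp h3).2
  have h5 : 8 * ε τ * ‖x.1‖ ≤ (D τ).r0 * ‖x.1‖ := mul_le_mul_of_nonneg_right hA.hr hg.le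
  have h6 := mul_pos hA.hε hg
  linarith

/-- The fold plate and a sheet which are both nearly present have the same imaginary part. -/
theorem be_fold_sh (h : HPFam s i₀ e D) (hτ : τ ∈ s)
    (hA : HAdm i₀ (ε τ) (R τ) (M τ) (K τ) (D τ)) (hs : x.1 ≠ 0) (a : κ ⊕ Bool)
    (h1 : -(ε τ * ‖x.1‖) < (hplates i₀ e ε R M K D).rho τ (.sh a) x)
    (h2 : -(ε τ * ‖x.1‖) < (hplates i₀ e ε R M K D).rho τ .fold x) :
    (hplates i₀ e ε R M K D).be τ (.sh a) x = (hplates i₀ e ε R M K D).be τ .fold x := by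
  have hph := ph_norm h hτ x.1
  have ht := (lt_tp_of_lt_rho h1).1
  unfold SheetData.be
  rcases a with a | b
  · exact (inl_fold_false hA hs hph h1 h2).elim
  · obtain ⟨z1, z2⟩ := zone_of_both hA hs h1 h2
    cases b with
    | true =>
      obtain ⟨e1, e2⟩ := fold_eq_k hA hs z1 z2 (la_pos_of_k' hA hs hph z1 z2 ht).le
      rw [e1, e2]
    | false =>
      obtain ⟨e1, e2⟩ := fold_eq_t hA hs hph z1 z2 (la_neg_of_t' hA hs hph z1 z2 ht).le
      rw [e1, e2, inner_rfl']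

/-- In the collar, the sheets which are nearly present have the imaginary part of the slab. -/
theorem be_sh_collar (h : HPFam s i₀ e D) (hτ : τ ∈ s)
    (hA : HAdm i₀ (ε τ) (R τ) (M τ) (K τ) (D τ)) (hs : x.1 ≠ 0) (hn : ‖kap x.1‖ = 1)
    (a : κ ⊕ Bool)
    (h1 : -(ε τ * ‖x.1‖) < (hplates i₀ e ε R M K D).rho τ (.sh a) x) :
    (hplates i₀ e ε R M K D).be τ (.sh a) x = inner ℝ x.2 e := by
  have key : inner ℝ ((D τ).cen i₀ a (kap x.1)) e = 0 ∧ (D τ).nor i₀ a (kap x.1) = e := by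
    rcases a with a | b
    · exact ⟨h.oth.bh τ hτ a _ hn, h.oth.nh τ hτ a _ hn⟩
    · have h2 := (kap_le_of_rho hA hs rfl h1).1
      have h3 : lf i₀ (D τ).c (kap x.1) = kap x.1 := lf_of_le h2
      cases b with
      | true =>
        show inner ℝ ((D τ).bk (lf i₀ (D τ).c (kap x.1))) e = 0 ∧
          (D τ).nk (lf i₀ (D τ).c (kap x.1)) = e
        rw [h3]
        exact h.hbk τ hτ _ hn h2
      | false =>
        show inner ℝ ((D τ).bt (lf i₀ (D τ).c (kap x.1))) e = 0 ∧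
          (D τ).nt (lf i₀ (D τ).c (kap x.1)) = e
        rw [h3]
        exact h.hbt τ hτ _ hn h2
  show inner ℝ (x.2 - ‖x.1‖ • (D τ).cen i₀ a (kap x.1)) ((D τ).nor i₀ a (kap x.1)) = _
  rw [key.2, inner_sub_left, real_inner_smul_left, key.1, mul_zero, sub_zero]

/-- In the collar, the fold plate, if nearly present, has the imaginary part of the slab. -/
theorem be_fold_collar (h : HPFam s i₀ e D) (hτ : τ ∈ s)
    (hA : HAdm i₀ (ε τ) (R τ) (M τ) (K τ) (D τ)) (hs : x.1 ≠ 0) (hn : ‖kap x.1‖ = 1)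
    (h1 : -(ε τ * ‖x.1‖) < (hplates i₀ e ε R M K D).rho τ .fold x) :
    (hplates i₀ e ε R M K D).be τ .fold x = inner ℝ x.2 e := by
  obtain ⟨h2, h3⟩ := lt_tp_of_lt_rho h1
  rw [tp_fold] at h2
  have h4 := (fold_present hA hs (ph_norm h hτ x.1) (ρ := 2 * ε τ) le_rfl h3 (by linarith)).1
  have h5 : |kap x.1 i₀| < 1 := by
    have h6 := hA.h1
    have h7 : |kap x.1 i₀| ≤ |kap x.1 i₀ - (D τ).c| + |(D τ).c| := by
      have := abs_add_le (kap x.1 i₀ - (D τ).c) (D τ).c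
      rwa [sub_add_cancel] at this
    linarith
  have h6 : ‖wl i₀ (D τ).c (kap x.1)‖ = 1 := wl_norm (h.hc τ hτ) hn h5
  obtain ⟨k1, k2, k3⟩ := h.hm τ hτ _ h6 (wl_apply _ _ _)
  show inner ℝ (foldw ((D τ).dep i₀ (K τ) x.1) ((D τ).ph (wl i₀ (D τ).c (kap x.1)))
        (x.2 - ‖x.1‖ • (D τ).m (wl i₀ (D τ).c (kap x.1))))
        ((D τ).nw (wl i₀ (D τ).c (kap x.1))) = _
  unfold foldw
  rw [k3, inner_add_left, real_inner_smul_left, k2, mul_zero, add_zero, inner_sub_left,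
    real_inner_smul_left, k1, mul_zero, sub_zero]

/-- **Separation.** -/
theorem hsep (h : HPFam s i₀ e D) (hτ : τ ∈ s)
    (hA : HAdm i₀ (ε τ) (R τ) (M τ) (K τ) (D τ)) (hs : x.1 ≠ 0) (a a' : HIx κ)
    (h1 : -(ε τ * ‖x.1‖) < (hplates i₀ e ε R M K D).rho τ a x)
    (h2 : -(ε τ * ‖x.1‖) < (hplates i₀ e ε R M K D).rho τ a' x) :
    (hplates i₀ e ε R M K D).be τ a x = (hplates i₀ e ε R M K D).be τ a' x := by
  have hM8 : 8 * ε τ ≤ M τ := by linarith [hA.hM, hA.hε, hA.hR]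
  have hcol : -(ε τ * ‖x.1‖) < (hplates i₀ e ε R M K D).rho τ .slab x → ‖kap x.1‖ = 1 := by
    intro h3
    have h4 : -ε τ * ‖x.1‖ < M τ * (‖x.1.2‖ - |x.1.1|) := by
      rw [neg_mul]
      exact (lt_tp_of_lt_rho h3).2
    obtain ⟨h5, h6⟩ := collar hs hA.hM0 hM8 h4
    exact norm_kap_of_le h5.le h6
  rcases a with _ | a | _ <;> rcases a' with _ | a' | _
  · rfl
  · exact (be_sh_collar h hτ hA hs (hcol h1) a' h2).symm
  · exact (be_fold_collar h hτ hA hs (hcol h1) h2).symm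
  · exact be_sh_collar h hτ hA hs (hcol h2) a h1
  · by_cases hne : a = a'
    · rw [hne]
    · exact (sh_sh_false hA hs hne h1 h2).elim
  · exact be_fold_sh h hτ hA hs a h1 h2
  · exact be_fold_collar h hτ hA hs (hcol h2) h1
  · exact (be_fold_sh h hτ hA hs a' h2 h1).symm
  · rfl

end Sep

end H366

open H366 in
/-- **The gluing conditions of the hairpin form.** -/
theorem hplates_glue {T V κ ι : Type*} [TopologicalSpace T] [NormedAddCommGroup V]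
    [InnerProductSpace ℝ V] [Fintype ι] [DecidableEq ι] [Fintype κ] {s : Set T} {i₀ : ι} {e : V}
    (he : ‖e‖ = 1) {ε R M K : T → ℝ} (cε : ContinuousOn ε s) (cR : ContinuousOn R s)
    (cM : ContinuousOn M s) (cK : ContinuousOn K s) {D : T → HData κ (ι → ℝ) V}
    (hD : HPFam s i₀ e D) (hA : ∀ τ ∈ s, HAdm i₀ (ε τ) (R τ) (M τ) (K τ) (D τ)) {η : ℝ}
    (hη : 0 < η) (hηε : ∀ τ ∈ s, η ≤ ε τ) :
    Glue s η (fun x => ‖x.1‖) (hplates i₀ e ε R M K D).rho (hplates i₀ e ε R M K D).be where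
  hη := hη
  cN := by fun_prop
  nN := fun x => norm_nonneg _
  cr := fun a => ((contOn_r cε cR a univ).sub (contOn_norm_w cR cK hD hA a)).inf
    (contOn_σ cM cK hD a univ)
  cb := fun a => (contOn_w cR cK hD hA a).inner (𝕜 := ℝ) (contOn_ν hD a)
  sep := fun τ hτ x hx a b h1 h2 => by
    have hs : x.1 ≠ 0 := norm_ne_zero_iff.mp hx
    have h3 : η * ‖x.1‖ ≤ ε τ * ‖x.1‖ :=
      mul_le_mul_of_nonneg_right (hηε τ hτ) (norm_nonneg _)
    have h4 : -(ε τ * ‖x.1‖) ≤ -η * ‖x.1‖ := by linarith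
    exact hsep hD hτ (hA τ hτ) hs a b (h4.trans_lt h1) (h4.trans_lt h2)
  hN := fun k hk x => by rw [Prod.smul_fst, norm_smul, Real.norm_eq_abs, abs_of_nonneg hk]
  hr := fun τ hτ a k hk x => by
    unfold SheetData.rho SheetData.tp
    rw [hr_smul τ a hk, hw_smul τ a hk, hσ_smul τ a hk, norm_smul, Real.norm_eq_abs,
      abs_of_nonneg hk, ← mul_sub, mul_min_of_nonneg _ _ hk]
  hb := fun τ hτ a k hk x _ => by
    unfold SheetData.be
    rw [hν_smul τ a hk, hw_smul τ a hk.le, real_inner_smul_left]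
  neg := by
    intro τ hτ a x hx hN
    have h1 : x.1 = 0 := norm_eq_zero.mp hN
    have h2 : x.2 ≠ 0 := fun h2 => hx (Prod.ext h1 h2)
    have h3 : 0 < ‖x.2‖ := norm_pos_iff.mpr h2
    refine lt_of_le_of_lt (min_le_left _ _) ?_
    rcases a with _ | a | _
    · show R τ * ‖x.1‖ - ‖x.2‖ < 0
      rw [h1, norm_zero]
      linarith
    · show ε τ * ‖x.1‖ - ‖x.2 - ‖x.1‖ • (D τ).cen i₀ a (kap x.1)‖ < 0
      rw [h1, norm_zero, zero_smul, sub_zero]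
      linarith
    · show ε τ * ‖x.1‖ - ‖foldw ((D τ).dep i₀ (K τ) x.1) ((D τ).ph (wl i₀ (D τ).c (kap x.1)))
        (x.2 - ‖x.1‖ • (D τ).m (wl i₀ (D τ).c (kap x.1)))‖ < 0
      have h4 : (D τ).dep i₀ (K τ) x.1 = 0 := by
        rw [h1]
        have := dep_smul i₀ (K τ) (D τ) le_rfl (0 : ℝ × (ι → ℝ))
        rwa [zero_smul, zero_mul] at this
      rw [h4, norm_foldw_zero (ph_norm hD hτ _), h1, norm_zero, zero_smul, sub_zero]
      linarith
  bd := fun a => ⟨fun τ x => ‖(hplates i₀ e ε R M K D).w τ a x‖, contOn_norm_w cR cK hD hA a,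
    fun τ hτ => by
      have := hw_smul (i₀ := i₀) (e := e) (ε := ε) (R := R) (M := M) (K := K) (D := D) τ a le_rfl
        (0 : (ℝ × (ι → ℝ)) × V)
      rw [zero_smul, zero_smul] at this
      show ‖(hplates i₀ e ε R M K D).w τ a 0‖ = 0
      rw [this, norm_zero],
    fun τ hτ x hx => by
      refine (abs_real_inner_le_norm _ _).trans ?_
      rw [hν_norm he hD hτ, mul_one]⟩

end Vale.Agent.P268.T
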