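import Vale.Agent.P268.T.H366.LipHom

/-!
# P268, topological half: Lipschitz approximation of homotopies of configurations

`exists_lip_homotopy_conf`: a continuous homotopy of configurations between Lipschitz
configurations, with values in a subspace `H` over `R` and constant in time over `B`, is replaced
by a jointly Lipschitz one with the same ends and the same conditions.
`exists_lip_homotopy_unit`: the same for unit vectors.
`exists_lip_conf`, `exists_lip_unit`: a continuous configuration is homotopic to a Lipschitz one.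
-/

set_option linter.unusedSectionVars false

namespace Vale.Agent.P268.T.H366

open Set Filter Topology Metric

variable {X : Type*} [MetricSpace X] [CompactSpace X]

section Vec

variable {V : Type*} [NormedAddCommGroup V] [NormedSpace ℝ V] [FiniteDimensional ℝ V]

/-- Vector version of `exists_lip_homotopy`. -/
theorem exists_lip_homotopy_vec {f₀ f₁ : X → V} {K₀ K₁ : NNReal} (h₀ : LipschitzWith K₀ f₀)
    (h₁ : LipschitzWith K₁ f₁) {F : unitInterval × X → V} (hF : Continuous F)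
    (hF0 : ∀ x, F (0, x) = f₀ x) (hF1 : ∀ x, F (1, x) = f₁ x) {B : Set X}
    (hB : ∀ x ∈ B, ∀ t, F (t, x) = f₀ x) {ε : ℝ} (hε : 0 < ε) :
    ∃ (G : unitInterval × X → V) (C : NNReal), LipschitzWith C G ∧ (∀ x, G (0, x) = f₀ x) ∧
      (∀ x, G (1, x) = f₁ x) ∧ (∀ x ∈ B, ∀ t, G (t, x) = f₀ x) ∧ ∀ p, ‖G p - F p‖ ≤ ε := by
  let e : V ≃L[ℝ] (Fin (Module.finrank ℝ V) → ℝ) :=
    ContinuousLinearEquiv.ofFinrankEq (by simp)
  set M := ‖(e.symm : (Fin (Module.finrank ℝ V) → ℝ) →L[ℝ] V)‖ + 1 with hM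
  have hM0 : 0 < M := by positivity
  have hl : ∀ i, ∃ C : NNReal, LipschitzWith C fun v : V => e v i := fun i =>
    ⟨_, (LipschitzWith.eval i).comp (e : V →L[ℝ] (Fin (Module.finrank ℝ V) → ℝ)).lipschitz⟩
  choose L hL using hl
  have key : ∀ i, ∃ (G : unitInterval × X → ℝ) (C : NNReal), LipschitzWith C G ∧
      (∀ x, G (0, x) = e (f₀ x) i) ∧ (∀ x, G (1, x) = e (f₁ x) i) ∧
      (∀ x ∈ B, ∀ t, G (t, x) = e (f₀ x) i) ∧ ∀ p, |G p - e (F p) i| ≤ ε / M := fun i =>
    exists_lip_homotopy (f₀ := fun x => e (f₀ x) i) (f₁ := fun x => e (f₁ x) i)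
      (F := fun p => e (F p) i) ((hL i).comp h₀) ((hL i).comp h₁)
      ((continuous_apply i).comp (e.continuous.comp hF)) (fun x => by rw [hF0])
      (fun x => by rw [hF1]) (B := B) (fun x hx t => by rw [hB x hx]) (by positivity)
  choose G C hG hG0 hG1 hGB hGF using key
  have h2 : LipschitzWith (Finset.univ.sup C) (fun z i => G i z) := by
    refine LipschitzWith.of_dist_le_mul fun x y => ?_
    rw [dist_pi_le_iff (by positivity)]
    intro i
    exact ((hG i).weaken (Finset.le_sup (Finset.mem_univ i))).dist_le_mul x y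
  refine ⟨fun z => e.symm fun i => G i z, _,
    (e.symm : (Fin (Module.finrank ℝ V) → ℝ) →L[ℝ] V).lipschitz.comp h2, fun x => ?_,
    fun x => ?_, fun x hx t => ?_, fun z => ?_⟩
  · show e.symm (fun i => G i (0, x)) = f₀ x
    rw [e.symm_apply_eq]
    funext i
    exact hG0 i x
  · show e.symm (fun i => G i (1, x)) = f₁ x
    rw [e.symm_apply_eq]
    funext i
    exact hG1 i x
  · show e.symm (fun i => G i (t, x)) = f₀ x
    rw [e.symm_apply_eq]
    funext i
    exact hGB i x hx t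
  · have h3 : e.symm (fun i => G i z) - F z = e.symm ((fun i => G i z) - e (F z)) := by
      rw [map_sub, e.symm_apply_apply]
    show ‖e.symm (fun i => G i z) - F z‖ ≤ ε
    rw [h3]
    have h4 : ‖(fun i => G i z) - e (F z)‖ ≤ ε / M := by
      rw [pi_norm_le_iff_of_nonneg (by positivity)]
      intro i
      exact hGF i z
    calc ‖e.symm ((fun i => G i z) - e (F z))‖
        ≤ ‖(e.symm : (Fin (Module.finrank ℝ V) → ℝ) →L[ℝ] V)‖ * ‖(fun i => G i z) - e (F z)‖ :=
          (e.symm : (Fin (Module.finrank ℝ V) → ℝ) →L[ℝ] V).le_opNorm _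
      _ ≤ M * (ε / M) := by
          gcongr
          linarith
      _ = ε := by field_simp

/-- Lipschitz approximation keeping the zeros. -/
theorem exists_lip_vanish {f : X → V} (hf : Continuous f) {η : ℝ} (hη : 0 < η) :
    ∃ (g : X → V) (C : NNReal), LipschitzWith C g ∧ (∀ x, f x = 0 → g x = 0) ∧
      ∀ x, ‖g x - f x‖ ≤ η := by
  let e : V ≃L[ℝ] (Fin (Module.finrank ℝ V) → ℝ) :=
    ContinuousLinearEquiv.ofFinrankEq (by simp)
  set M := ‖(e.symm : (Fin (Module.finrank ℝ V) → ℝ) →L[ℝ] V)‖ + 1 with hM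
  have hM0 : 0 < M := by positivity
  have hs : ∀ k, ∃ (g : X → ℝ) (C : NNReal), LipschitzWith C g ∧ (∀ x, f x = 0 → g x = 0) ∧
      ∀ x, |g x - e (f x) k| ≤ η / M := by
    intro k
    obtain ⟨g, C, hg, hgf⟩ := W196.exists_lip_real (K := X) (f := fun x => e (f x) k)
      ((continuous_apply k).comp (e.continuous.comp hf))
      (show 0 < η / M / 2 by positivity)
    refine ⟨fun x => soft (η / M / 2) (g x), _, (soft_lip _).comp hg, fun x hx => ?_,
      fun x => ?_⟩
    · refine soft_eq_zero ?_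
      have := hgf x
      rw [hx] at this
      simpa using this
    · have e1 := hgf x
      have e2 := abs_soft_sub (ε := η / M / 2) (x := g x) (by positivity)
      have e3 : soft (η / M / 2) (g x) - e (f x) k =
          (soft (η / M / 2) (g x) - g x) + (g x - e (f x) k) := by ring
      show |soft (η / M / 2) (g x) - e (f x) k| ≤ η / M
      rw [e3]
      refine (abs_add_le _ _).trans ?_
      linarith
  choose g C hg hg0 hgf using hs
  have h2 : LipschitzWith (Finset.univ.sup C) (fun z k => g k z) := by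
    refine LipschitzWith.of_dist_le_mul fun x y => ?_
    rw [dist_pi_le_iff (by positivity)]
    intro k
    exact ((hg k).weaken (Finset.le_sup (Finset.mem_univ k))).dist_le_mul x y
  refine ⟨fun z => e.symm fun k => g k z, _,
    (e.symm : (Fin (Module.finrank ℝ V) → ℝ) →L[ℝ] V).lipschitz.comp h2, fun x hx => ?_,
    fun z => ?_⟩
  · show e.symm (fun k => g k x) = 0
    rw [e.symm_apply_eq, map_zero]
    funext k
    exact hg0 k x hx
  · have h3 : e.symm (fun k => g k z) - f z = e.symm ((fun k => g k z) - e (f z)) := by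
      rw [map_sub, e.symm_apply_apply]
    show ‖e.symm (fun k => g k z) - f z‖ ≤ η
    rw [h3]
    have h4 : ‖(fun k => g k z) - e (f z)‖ ≤ η / M := by
      rw [pi_norm_le_iff_of_nonneg (by positivity)]
      intro k
      exact hgf k z
    calc ‖e.symm ((fun k => g k z) - e (f z))‖
        ≤ ‖(e.symm : (Fin (Module.finrank ℝ V) → ℝ) →L[ℝ] V)‖ *
          ‖(fun k => g k z) - e (f z)‖ :=
          (e.symm : (Fin (Module.finrank ℝ V) → ℝ) →L[ℝ] V).le_opNorm _
      _ ≤ M * (η / M) := by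
          gcongr
          linarith
      _ = η := by field_simp

/-- Version with values in a subspace `H` over a set `R`. -/
theorem exists_lip_homotopy_rim (H : Submodule ℝ V) {f₀ f₁ : X → V} {K₀ K₁ : NNReal}
    (h₀ : LipschitzWith K₀ f₀) (h₁ : LipschitzWith K₁ f₁) {F : unitInterval × X → V}
    (hF : Continuous F) (hF0 : ∀ x, F (0, x) = f₀ x) (hF1 : ∀ x, F (1, x) = f₁ x) {R B : Set X}
    (hR : ∀ x ∈ R, ∀ t, F (t, x) ∈ H) (hB : ∀ x ∈ B, ∀ t, F (t, x) = f₀ x) {ε : ℝ}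
    (hε : 0 < ε) :
    ∃ (G : unitInterval × X → V) (C : NNReal), LipschitzWith C G ∧ (∀ x, G (0, x) = f₀ x) ∧
      (∀ x, G (1, x) = f₁ x) ∧ (∀ x ∈ R, ∀ t, G (t, x) ∈ H) ∧
      (∀ x ∈ B, ∀ t, G (t, x) = f₀ x) ∧ ∀ p, ‖G p - F p‖ ≤ ε := by
  obtain ⟨π, hπ⟩ := LinearMap.exists_leftInverse_of_injective H.subtype H.ker_subtype
  have hπH : ∀ v ∈ H, ((π v : H) : V) = v := fun v hv => by
    have := congrArg (fun f => f ⟨v, hv⟩) hπ
    simp only [LinearMap.comp_apply, Submodule.subtype_apply, LinearMap.id_apply] at this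
    rw [this]
  let P : V →L[ℝ] H := LinearMap.toContinuousLinearMap π
  have hP : ∀ v, P v = π v := fun v => rfl
  let ρ : V →L[ℝ] V := ContinuousLinearMap.id ℝ V - H.subtypeL.comp P
  have hρ : ∀ v, ρ v = v - (P v : V) := fun v => rfl
  have hρH : ∀ v ∈ H, ρ v = 0 := fun v hv => by rw [hρ, hP, hπH v hv, sub_self]
  obtain ⟨G₁, C₁, l₁, a₁, b₁, c₁, d₁⟩ := exists_lip_homotopy_vec (f₀ := fun x => P (f₀ x))
    (f₁ := fun x => P (f₁ x)) (F := fun p => P (F p)) (P.lipschitz.comp h₀)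
    (P.lipschitz.comp h₁) (P.continuous.comp hF) (fun x => by rw [hF0]) (fun x => by rw [hF1])
    (B := B) (fun x hx t => by rw [hB x hx]) (half_pos hε)
  obtain ⟨G₂, C₂, l₂, a₂, b₂, c₂, d₂⟩ := exists_lip_homotopy_vec (f₀ := fun x => ρ (f₀ x))
    (f₁ := fun x => ρ (f₁ x)) (F := fun p => ρ (F p)) (ρ.lipschitz.comp h₀)
    (ρ.lipschitz.comp h₁) (ρ.continuous.comp hF) (fun x => by rw [hF0]) (fun x => by rw [hF1])
    (B := B ∪ R) (fun x hx t => by
      rcases hx with hx | hx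
      · rw [hB x hx]
      · rw [hρH _ (hR x hx t)]
        have := hR x hx 0
        rw [hF0] at this
        exact (hρH _ this).symm) (half_pos hε)
  have hsum : ∀ v, (P v : V) + ρ v = v := fun v => by rw [hρ]; abel
  refine ⟨fun p => (G₁ p : V) + G₂ p, _,
    (H.subtypeL.lipschitz.comp l₁).add l₂, fun x => ?_, fun x => ?_, fun x hx t => ?_,
    fun x hx t => ?_, fun p => ?_⟩
  · show (G₁ (0, x) : V) + G₂ (0, x) = f₀ x
    rw [a₁, a₂, hsum]
  · show (G₁ (1, x) : V) + G₂ (1, x) = f₁ x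
    rw [b₁, b₂, hsum]
  · show (G₁ (t, x) : V) + G₂ (t, x) ∈ H
    have h3 : G₂ (t, x) = 0 := by
      rw [c₂ x (Or.inr hx) t]
      have := hR x hx 0
      rw [hF0] at this
      exact hρH _ this
    rw [h3, add_zero]
    exact (G₁ (t, x)).2
  · show (G₁ (t, x) : V) + G₂ (t, x) = f₀ x
    rw [c₁ x hx t, c₂ x (Or.inl hx) t, hsum]
  · have e1 : (G₁ p : V) + G₂ p - F p = ((G₁ p - P (F p) : H) : V) + (G₂ p - ρ (F p)) := by
      have h4 : F p = (P (F p) : V) + ρ (F p) := (hsum (F p)).symm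
      rw [Submodule.coe_sub]
      calc (G₁ p : V) + G₂ p - F p = (G₁ p : V) + G₂ p - ((P (F p) : V) + ρ (F p)) := by
            rw [← h4]
        _ = _ := by abel
    show ‖(G₁ p : V) + G₂ p - F p‖ ≤ ε
    rw [e1]
    refine (norm_add_le _ _).trans ?_
    have e2 : ‖((G₁ p - P (F p) : H) : V)‖ ≤ ε / 2 := d₁ p
    have e3 := d₂ p
    linarith

end Vec

section Conf

variable {ι : Type*} [Fintype ι]
  {V : Type*} [NormedAddCommGroup V] [NormedSpace ℝ V] [FiniteDimensional ℝ V]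

theorem exists_gap {Y : Type*} [TopologicalSpace Y] [CompactSpace Y] {F : ι → Y → V}
    (hF : ∀ i, Continuous (F i)) (hinj : ∀ y, Function.Injective fun i => F i y) :
    ∃ δ > 0, ∀ i j, i ≠ j → ∀ y, δ ≤ ‖F i y - F j y‖ := by
  classical
  have h1 : ∀ p : ι × ι, ∃ δ > 0, p.1 ≠ p.2 → ∀ y, δ ≤ ‖F p.1 y - F p.2 y‖ := by
    intro p
    by_cases hp : p.1 = p.2
    · exact ⟨1, one_pos, fun h => absurd hp h⟩
    · rcases isEmpty_or_nonempty Y with hY | hY
      · exact ⟨1, one_pos, fun _ y => (hY.false y).elim⟩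
      · have hc : Continuous fun y => ‖F p.1 y - F p.2 y‖ := ((hF _).sub (hF _)).norm
        obtain ⟨y₀, -, hy₀⟩ := isCompact_univ.exists_isMinOn univ_nonempty hc.continuousOn
        refine ⟨‖F p.1 y₀ - F p.2 y₀‖, ?_, fun _ y => hy₀ (mem_univ y)⟩
        refine norm_pos_iff.mpr (sub_ne_zero.mpr fun h => hp (hinj y₀ h))
  choose δ hδ h using h1
  rcases isEmpty_or_nonempty (ι × ι) with hι | hι
  · exact ⟨1, one_pos, fun i j => (hι.false (i, j)).elim⟩
  · obtain ⟨p₀, hp₀⟩ := Finite.exists_min δ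
    exact ⟨δ p₀, hδ p₀, fun i j hij y => (hp₀ (i, j)).trans (h (i, j) hij y)⟩

/-- Lipschitz replacement of a homotopy of configurations. -/
theorem exists_lip_homotopy_conf (H : Submodule ℝ V) {c c' : ι → X → V}
    (hc : ∀ i, ∃ K : NNReal, LipschitzWith K (c i))
    (hc' : ∀ i, ∃ K : NNReal, LipschitzWith K (c' i)) {F : ι → unitInterval × X → V}
    (hF : ∀ i, Continuous (F i)) (hF0 : ∀ i x, F i (0, x) = c i x)
    (hF1 : ∀ i x, F i (1, x) = c' i x) {R B : Set X} (hR : ∀ i, ∀ x ∈ R, ∀ t, F i (t, x) ∈ H)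
    (hB : ∀ i, ∀ x ∈ B, ∀ t, F i (t, x) = c i x)
    (hinj : ∀ p, Function.Injective fun i => F i p) {ε : ℝ} (hε : 0 < ε) :
    ∃ G : ι → unitInterval × X → V, (∀ i, ∃ K : NNReal, LipschitzWith K (G i)) ∧
      (∀ i x, G i (0, x) = c i x) ∧ (∀ i x, G i (1, x) = c' i x) ∧
      (∀ i, ∀ x ∈ R, ∀ t, G i (t, x) ∈ H) ∧ (∀ i, ∀ x ∈ B, ∀ t, G i (t, x) = c i x) ∧
      (∀ p, Function.Injective fun i => G i p) ∧ ∀ i p, ‖G i p - F i p‖ ≤ ε := by
  obtain ⟨δ, hδ, hgap⟩ := exists_gap hF hinj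
  choose K hK using hc
  choose K' hK' using hc'
  have key := fun i => exists_lip_homotopy_rim H (hK i) (hK' i) (hF i) (hF0 i) (hF1 i)
    (hR i) (hB i) (lt_min hε (show 0 < δ / 4 by positivity))
  choose G C h1 h2 h3 h4 h5 h6 using key
  refine ⟨G, fun i => ⟨C i, h1 i⟩, h2, h3, h4, h5, fun p i j hij => ?_,
    fun i p => (h6 i p).trans (min_le_left _ _)⟩
  by_contra hne
  have e1 := hgap i j hne p
  have e2 := (h6 i p).trans (min_le_right _ _)
  have e3 := (h6 j p).trans (min_le_right _ _)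
  have e4 : F i p - F j p = -(G i p - F i p) + (G j p - F j p) := by
    have : G i p = G j p := hij
    rw [this]; abel
  rw [e4] at e1
  have e5 := norm_add_le (-(G i p - F i p)) (G j p - F j p)
  rw [norm_neg] at e5
  linarith

/-- A continuous configuration is homotopic to a Lipschitz one, by the straight line homotopy. -/
theorem exists_lip_conf (H : Submodule ℝ V) {c : ι → X → V} (hc : ∀ i, Continuous (c i))
    {R B : Set X} (hR : ∀ i, ∀ x ∈ R, c i x ∈ H) {v : ι → V} (hv : ∀ i, v i ∈ H)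
    (hB : ∀ i, ∀ x ∈ B, c i x = v i)
    (hinj : ∀ x, Function.Injective fun i => c i x) {ε : ℝ} (hε : 0 < ε) :
    ∃ (c' : ι → X → V), (∀ i, ∃ K : NNReal, LipschitzWith K (c' i)) ∧
      (∀ i, ∀ x ∈ R, c' i x ∈ H) ∧ (∀ i, ∀ x ∈ B, c' i x = v i) ∧
      (∀ i x, ‖c' i x - c i x‖ ≤ ε) ∧
      ∀ t : ℝ, 0 ≤ t → t ≤ 1 → ∀ x,
        Function.Injective fun i => (1 - t) • c i x + t • c' i x := by
  obtain ⟨δ, hδ, hgap⟩ := exists_gap hc hinj
  have hε' : 0 < min ε (δ / 4) := lt_min hε (by positivity)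
  have key : ∀ i, ∃ (G : X → V) (C : NNReal), LipschitzWith C G ∧
      (∀ x ∈ R, G x ∈ H) ∧ (∀ x ∈ B, G x = v i) ∧
      ∀ x, ‖G x - c i x‖ ≤ min ε (δ / 4) := by
    intro i
    obtain ⟨π, hπ⟩ := LinearMap.exists_leftInverse_of_injective H.subtype H.ker_subtype
    have hπH : ∀ v ∈ H, ((π v : H) : V) = v := fun v hv => by
      have := congrArg (fun f => f ⟨v, hv⟩) hπ
      simp only [LinearMap.comp_apply, Submodule.subtype_apply, LinearMap.id_apply] at this
      rw [this]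
    let P : V →L[ℝ] H := LinearMap.toContinuousLinearMap π
    have hP : ∀ v, P v = π v := fun v => rfl
    let ρ : V →L[ℝ] V := ContinuousLinearMap.id ℝ V - H.subtypeL.comp P
    have hρ : ∀ v, ρ v = v - (P v : V) := fun v => rfl
    have hρH : ∀ v ∈ H, ρ v = 0 := fun v hv => by rw [hρ, hP, hπH v hv, sub_self]
    have hsum : ∀ v, (P v : V) + ρ v = v := fun v => by rw [hρ]; abel
    obtain ⟨g₁, C₁, l₁, z₁, d₁⟩ := exists_lip_vanish (f := fun x => P (c i x - v i))
      (P.continuous.comp ((hc i).sub continuous_const)) (half_pos hε')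
    obtain ⟨g₂, C₂, l₂, z₂, d₂⟩ := exists_lip_vanish (f := fun x => ρ (c i x))
      (ρ.continuous.comp (hc i)) (half_pos hε')
    refine ⟨fun x => v i + ((g₁ x : V) + g₂ x), _,
      (LipschitzWith.const (v i)).add ((H.subtypeL.lipschitz.comp l₁).add l₂), fun x hx => ?_,
      fun x hx => ?_, fun x => ?_⟩
    · show v i + ((g₁ x : V) + g₂ x) ∈ H
      rw [z₂ x (hρH _ (hR i x hx)), add_zero]
      exact H.add_mem (hv i) (g₁ x).2
    · show v i + ((g₁ x : V) + g₂ x) = v i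
      have e1 : P (c i x - v i) = 0 := by rw [hB i x hx, sub_self, map_zero]
      have e2 : ρ (c i x) = 0 := by rw [hB i x hx]; exact hρH _ (hv i)
      rw [z₁ x e1, z₂ x e2]
      simp
    · have h5 : ρ (v i) = 0 := hρH _ (hv i)
      have h4 : c i x = v i + ((P (c i x - v i) : V) + ρ (c i x)) := by
        have := hsum (c i x - v i)
        rw [map_sub ρ, h5, sub_zero] at this
        rw [this]; abel
      have e1 : v i + ((g₁ x : V) + g₂ x) - c i x =
          ((g₁ x - P (c i x - v i) : H) : V) + (g₂ x - ρ (c i x)) := by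
        rw [Submodule.coe_sub]
        calc v i + ((g₁ x : V) + g₂ x) - c i x
            = v i + ((g₁ x : V) + g₂ x) - (v i + ((P (c i x - v i) : V) + ρ (c i x))) := by
              rw [← h4]
          _ = _ := by abel
      show ‖v i + ((g₁ x : V) + g₂ x) - c i x‖ ≤ min ε (δ / 4)
      rw [e1]
      refine (norm_add_le _ _).trans ?_
      have e2 : ‖((g₁ x - P (c i x - v i) : H) : V)‖ ≤ min ε (δ / 4) / 2 := d₁ x
      have e3 := d₂ x
      linarith
  choose G C h1 h2 h3 h4 using key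
  refine ⟨G, fun i => ⟨C i, h1 i⟩, h2, h3, fun i x => (h4 i x).trans (min_le_left _ _),
    fun t ht0 ht1 x i j hij => ?_⟩
  by_contra hne
  have e1 := hgap i j hne x
  have e2 := (h4 i x).trans (min_le_right _ _)
  have e3 := (h4 j x).trans (min_le_right _ _)
  have e4 : c i x - c j x = -(t • (G i x - c i x)) + t • (G j x - c j x) := by
    have h5 : (1 - t) • c i x + t • G i x = (1 - t) • c j x + t • G j x := hij
    have h6 : c i x + t • (G i x - c i x) = c j x + t • (G j x - c j x) := by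
      calc c i x + t • (G i x - c i x) = (1 - t) • c i x + t • G i x := by module
        _ = (1 - t) • c j x + t • G j x := h5
        _ = _ := by module
    have h7 : c i x - c j x = (c i x + t • (G i x - c i x)) - (c j x + t • (G j x - c j x)) +
        (-(t • (G i x - c i x)) + t • (G j x - c j x)) := by abel
    rw [h7, h6, sub_self, zero_add]
  rw [e4] at e1
  have e5 := norm_add_le (-(t • (G i x - c i x))) (t • (G j x - c j x))
  rw [norm_neg, norm_smul, norm_smul, Real.norm_of_nonneg ht0] at e5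
  have e6 : t * ‖G i x - c i x‖ ≤ 1 * (δ / 4) := mul_le_mul ht1 e2 (norm_nonneg _) zero_le_one
  have e7 : t * ‖G j x - c j x‖ ≤ 1 * (δ / 4) := mul_le_mul ht1 e3 (norm_nonneg _) zero_le_one
  linarith

end Conf

section Unit

variable {V : Type*} [NormedAddCommGroup V] [NormedSpace ℝ V] [FiniteDimensional ℝ V]

theorem norm_normalize_sub_le {v w : V} (hv : 1 / 2 ≤ ‖v‖) (hw : 1 / 2 ≤ ‖w‖) :
    ‖‖v‖⁻¹ • v - ‖w‖⁻¹ • w‖ ≤ 4 * ‖v - w‖ := by
  have hv0 : 0 < ‖v‖ := by linarith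
  have hw0 : 0 < ‖w‖ := by linarith
  have e1 : ‖v‖⁻¹ • v - ‖w‖⁻¹ • w = ‖v‖⁻¹ • (v - w) + (‖v‖⁻¹ - ‖w‖⁻¹) • w := by
    module
  have e2 : ‖v‖⁻¹ - ‖w‖⁻¹ = (‖w‖ - ‖v‖) * (‖v‖⁻¹ * ‖w‖⁻¹) := by field_simp
  rw [e1]
  refine (norm_add_le _ _).trans ?_
  rw [norm_smul, norm_smul, e2, norm_mul, norm_mul, norm_inv, norm_inv, norm_norm, norm_norm]
  have e3 : ‖‖w‖ - ‖v‖‖ ≤ ‖v - w‖ := by
    rw [Real.norm_eq_abs, norm_sub_rev]
    exact abs_norm_sub_norm_le _ _
  have e4 : ‖v‖⁻¹ ≤ 2 := by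
    rw [inv_le_comm₀ hv0 two_pos]
    linarith
  have e5 : ‖‖w‖ - ‖v‖‖ * (‖v‖⁻¹ * ‖w‖⁻¹) * ‖w‖ = ‖‖w‖ - ‖v‖‖ * ‖v‖⁻¹ := by
    field_simp
  rw [e5]
  have h0 : 0 ≤ ‖v‖⁻¹ := by positivity
  have h1 : 0 ≤ ‖v - w‖ := norm_nonneg _
  calc ‖v‖⁻¹ * ‖v - w‖ + ‖‖w‖ - ‖v‖‖ * ‖v‖⁻¹ ≤ 2 * ‖v - w‖ + ‖v - w‖ * 2 :=
        add_le_add (mul_le_mul_of_nonneg_right e4 h1) (mul_le_mul e3 e4 h0 h1)
    _ = 4 * ‖v - w‖ := by ring

theorem LipschitzWith.normalize {Y : Type*} [PseudoMetricSpace Y] {G : Y → V} {K : NNReal}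
    (hG : LipschitzWith K G) (h : ∀ y, 1 / 2 ≤ ‖G y‖) :
    LipschitzWith (4 * K) fun y => ‖G y‖⁻¹ • G y := by
  refine LipschitzWith.of_dist_le_mul fun x y => ?_
  have e1 := hG.dist_le_mul x y
  rw [dist_eq_norm] at e1 ⊢
  refine (norm_normalize_sub_le (h x) (h y)).trans ?_
  push_cast
  calc 4 * ‖G x - G y‖ ≤ 4 * (K * dist x y) := by linarith
    _ = 4 * K * dist x y := by ring

/-- Lipschitz replacement of a homotopy of unit vectors. -/
theorem exists_lip_homotopy_unit {f₀ f₁ : X → V} {K₀ K₁ : NNReal} (h₀ : LipschitzWith K₀ f₀)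
    (h₁ : LipschitzWith K₁ f₁) {F : unitInterval × X → V} (hF : Continuous F)
    (hF0 : ∀ x, F (0, x) = f₀ x) (hF1 : ∀ x, F (1, x) = f₁ x) {B : Set X}
    (hB : ∀ x ∈ B, ∀ t, F (t, x) = f₀ x) (hu : ∀ p, ‖F p‖ = 1) :
    ∃ (G : unitInterval × X → V) (C : NNReal), LipschitzWith C G ∧ (∀ x, G (0, x) = f₀ x) ∧
      (∀ x, G (1, x) = f₁ x) ∧ (∀ x ∈ B, ∀ t, G (t, x) = f₀ x) ∧ ∀ p, ‖G p‖ = 1 := by
  obtain ⟨G, C, h1, h2, h3, h4, h5⟩ := exists_lip_homotopy_vec h₀ h₁ hF hF0 hF1 hB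
    (show (0 : ℝ) < 1 / 2 by norm_num)
  have hG : ∀ p, 1 / 2 ≤ ‖G p‖ := fun p => by
    have e1 := norm_sub_norm_le (F p) (G p)
    rw [hu, norm_sub_rev] at e1
    linarith [h5 p]
  refine ⟨fun p => ‖G p‖⁻¹ • G p, _, LipschitzWith.normalize h1 hG, fun x => ?_, fun x => ?_,
    fun x hx t => ?_, fun p => ?_⟩
  · show ‖G (0, x)‖⁻¹ • G (0, x) = f₀ x
    rw [h2, ← hF0, hu, inv_one, one_smul]
  · show ‖G (1, x)‖⁻¹ • G (1, x) = f₁ x
    rw [h3, ← hF1, hu, inv_one, one_smul]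
  · show ‖G (t, x)‖⁻¹ • G (t, x) = f₀ x
    rw [h4 x hx, ← hF0, hu, inv_one, one_smul]
  · show ‖‖G p‖⁻¹ • G p‖ = 1
    have : 0 < ‖G p‖ := by linarith [hG p]
    rw [norm_smul, norm_inv, norm_norm]
    field_simp

/-- A continuous family of unit vectors is homotopic to a Lipschitz one. -/
theorem exists_lip_unit {f : X → V} (hf : Continuous f) {B : Set X} {e : V}
    (hB : ∀ x ∈ B, f x = e) (he : ‖e‖ = 1) (hu : ∀ x, ‖f x‖ = 1) :
    ∃ (F : unitInterval × X → V) (C : NNReal), Continuous F ∧ (∀ x, F (0, x) = f x) ∧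
      LipschitzWith C (fun x => F (1, x)) ∧ (∀ x ∈ B, ∀ t, F (t, x) = e) ∧
      ∀ p, ‖F p‖ = 1 := by
  obtain ⟨g, C, h1, h2, h3⟩ := exists_lip_vanish (f := fun x => f x - e)
    (hf.sub continuous_const) (show (0 : ℝ) < 1 / 2 by norm_num)
  let G : unitInterval × X → V := fun p => (1 - (p.1 : ℝ)) • f p.2 + (p.1 : ℝ) • (e + g p.2)
  have hGc : Continuous G := by
    have h4 : Continuous fun p : unitInterval × X => (p.1 : ℝ) :=
      continuous_subtype_val.comp continuous_fst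
    exact ((continuous_const.sub h4).smul (hf.comp continuous_snd)).add
      (h4.smul (continuous_const.add (h1.continuous.comp continuous_snd)))
  have hG : ∀ p, 1 / 2 ≤ ‖G p‖ := fun p => by
    have e1 : f p.2 - G p = -((p.1 : ℝ) • (g p.2 - (f p.2 - e))) := by
      simp only [G]; module
    have e2 := norm_sub_norm_le (f p.2) (G p)
    rw [hu, e1, norm_neg, norm_smul, Real.norm_of_nonneg p.1.2.1] at e2
    have e3 := h3 p.2
    have e4 : (p.1 : ℝ) * ‖g p.2 - (f p.2 - e)‖ ≤ 1 * (1 / 2) :=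
      mul_le_mul p.1.2.2 e3 (norm_nonneg _) zero_le_one
    linarith
  have hG1 : ∀ x, G (1, x) = e + g x := fun x => by simp [G]
  refine ⟨fun p => ‖G p‖⁻¹ • G p, 4 * (0 + C), ?_, fun x => ?_, ?_, fun x hx t => ?_,
    fun p => ?_⟩
  · refine Continuous.smul (Continuous.inv₀ hGc.norm fun p => ?_) hGc
    have := hG p
    intro h
    linarith
  · have e1 : G (0, x) = f x := by simp [G]
    show ‖G (0, x)‖⁻¹ • G (0, x) = f x
    rw [e1, hu, inv_one, one_smul]
  · have h4 : LipschitzWith (0 + C) fun x => G (1, x) := by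
      simp_rw [hG1]
      exact (LipschitzWith.const e).add h1
    exact LipschitzWith.normalize h4 fun x => hG (1, x)
  · have e1 : G (t, x) = e := by
      have e2 : g x = 0 := h2 x (by rw [hB x hx, sub_self])
      simp only [G]
      rw [hB x hx, e2, add_zero]
      module
    show ‖G (t, x)‖⁻¹ • G (t, x) = e
    rw [e1, he, inv_one, one_smul]
  · show ‖‖G p‖⁻¹ • G p‖ = 1
    have : 0 < ‖G p‖ := by linarith [hG p]
    rw [norm_smul, norm_inv, norm_norm]
    field_simp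

end Unit

end Vale.Agent.P268.T.H366
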