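import Vale.Agent.P268.T.W196.Lip

/-!
# P268, topological half: Lipschitz approximation of homotopies rel ends and faces

A continuous homotopy `F` between Lipschitz maps, constant in time on a set `B`, is replaced by
a jointly Lipschitz one with the same ends and the same values on `B`.
-/

namespace Vale.Agent.P268.T.H366

open Set Filter Topology Metric

/-- Soft thresholding. -/
noncomputable def soft (ε x : ℝ) : ℝ := max (x - ε) 0 - max (-x - ε) 0

theorem soft_lip (ε : ℝ) : LipschitzWith 2 (soft ε) := by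
  refine LipschitzWith.of_dist_le_mul fun x y => ?_
  rw [Real.dist_eq, Real.dist_eq, soft, soft]
  have h1 : |max (x - ε) 0 - max (y - ε) 0| ≤ |x - y| := by
    refine (abs_max_sub_max_le_abs _ _ _).trans_eq ?_
    congr 1; ring
  have h2 : |max (-x - ε) 0 - max (-y - ε) 0| ≤ |x - y| := by
    refine (abs_max_sub_max_le_abs _ _ _).trans_eq ?_
    rw [show -x - ε - (-y - ε) = -(x - y) by ring, abs_neg]
  have h3 : max (x - ε) 0 - max (-x - ε) 0 - (max (y - ε) 0 - max (-y - ε) 0) =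
      (max (x - ε) 0 - max (y - ε) 0) - (max (-x - ε) 0 - max (-y - ε) 0) := by ring
  rw [h3]
  refine (abs_sub _ _).trans ?_
  push_cast
  linarith

theorem soft_eq_zero {ε x : ℝ} (h : |x| ≤ ε) : soft ε x = 0 := by
  rw [abs_le] at h
  rw [soft, max_eq_right (by linarith), max_eq_right (by linarith), sub_self]

theorem abs_soft_sub {ε x : ℝ} (hε : 0 ≤ ε) : |soft ε x - x| ≤ ε := by
  rw [soft, abs_le]
  rcases le_total ε x with h | h
  · rw [max_eq_left (by linarith), max_eq_right (by linarith)]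
    constructor <;> linarith
  · rw [max_eq_right (by linarith)]
    rcases le_total ε (-x) with h' | h'
    · rw [max_eq_left (by linarith)]
      constructor <;> linarith
    · rw [max_eq_right (by linarith)]
      constructor <;> linarith

variable {X : Type*} [MetricSpace X] [CompactSpace X]

/-- Scalar version. -/
theorem exists_lip_homotopy {f₀ f₁ : X → ℝ} {K₀ K₁ : NNReal} (h₀ : LipschitzWith K₀ f₀)
    (h₁ : LipschitzWith K₁ f₁) {F : unitInterval × X → ℝ} (hF : Continuous F)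
    (hF0 : ∀ x, F (0, x) = f₀ x) (hF1 : ∀ x, F (1, x) = f₁ x) {B : Set X}
    (hB : ∀ x ∈ B, ∀ t, F (t, x) = f₀ x) {ε : ℝ} (hε : 0 < ε) :
    ∃ (G : unitInterval × X → ℝ) (C : NNReal), LipschitzWith C G ∧ (∀ x, G (0, x) = f₀ x) ∧
      (∀ x, G (1, x) = f₁ x) ∧ (∀ x ∈ B, ∀ t, G (t, x) = f₀ x) ∧ ∀ p, |G p - F p| ≤ ε := by
  -- the linear interpolation
  let I : unitInterval × X → ℝ := fun p => f₀ p.2 + (p.1 : ℝ) * (f₁ p.2 - f₀ p.2)
  obtain ⟨M, hM⟩ : ∃ M : ℝ, ∀ x, |f₁ x - f₀ x| ≤ M := by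
    have hc : Continuous fun x => |f₁ x - f₀ x| :=
      (h₁.continuous.sub h₀.continuous).abs
    obtain ⟨M, hM⟩ := (isCompact_range hc).bddAbove
    exact ⟨M, fun x => hM (mem_range_self x)⟩
  have hIl : ∃ C : NNReal, LipschitzWith C I := by
    refine ⟨K₀ + (K₁ + K₀) + Real.toNNReal |M|, LipschitzWith.of_dist_le_mul fun p q => ?_⟩
    have e1 := h₀.dist_le_mul p.2 q.2
    have e2 := h₁.dist_le_mul p.2 q.2
    rw [Real.dist_eq] at e1 e2 ⊢
    have e3 : dist p.2 q.2 ≤ dist p q := by rw [Prod.dist_eq]; exact le_max_right _ _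
    have e4 : |(p.1 : ℝ) - q.1| ≤ dist p q := by
      rw [Prod.dist_eq]; exact le_max_left _ _
    have e5 : I p - I q = (f₀ p.2 - f₀ q.2) + ((p.1 : ℝ) *
        ((f₁ p.2 - f₁ q.2) - (f₀ p.2 - f₀ q.2)) + ((p.1 : ℝ) - q.1) * (f₁ q.2 - f₀ q.2)) := by
      simp only [I]; ring
    rw [e5]
    have hp0 : (0 : ℝ) ≤ p.1 := p.1.2.1
    have hp1 : (p.1 : ℝ) ≤ 1 := p.1.2.2
    have hd : 0 ≤ dist p q := dist_nonneg
    have hd2 : 0 ≤ dist p.2 q.2 := dist_nonneg
    have e6 : |(p.1 : ℝ) * ((f₁ p.2 - f₁ q.2) - (f₀ p.2 - f₀ q.2))| ≤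
        (K₁ + K₀) * dist p q := by
      rw [abs_mul, abs_of_nonneg hp0]
      calc (p.1 : ℝ) * |(f₁ p.2 - f₁ q.2) - (f₀ p.2 - f₀ q.2)|
          ≤ 1 * (|f₁ p.2 - f₁ q.2| + |f₀ p.2 - f₀ q.2|) := by
            refine mul_le_mul hp1 (abs_sub _ _) (abs_nonneg _) zero_le_one
        _ ≤ K₁ * dist p.2 q.2 + K₀ * dist p.2 q.2 := by rw [one_mul]; exact add_le_add e2 e1
        _ ≤ (K₁ + K₀) * dist p q := by rw [← add_mul]; gcongr
    have e7 : |((p.1 : ℝ) - q.1) * (f₁ q.2 - f₀ q.2)| ≤ |M| * dist p q := by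
      rw [abs_mul, mul_comm |M|]
      exact mul_le_mul e4 ((hM _).trans (le_abs_self M)) (abs_nonneg _) hd
    have e8 : |f₀ p.2 - f₀ q.2| ≤ K₀ * dist p q := e1.trans (by gcongr)
    push_cast
    rw [Real.coe_toNNReal _ (abs_nonneg M)]
    calc |f₀ p.2 - f₀ q.2 + ((p.1 : ℝ) * ((f₁ p.2 - f₁ q.2) - (f₀ p.2 - f₀ q.2)) +
          ((p.1 : ℝ) - q.1) * (f₁ q.2 - f₀ q.2))|
        ≤ |f₀ p.2 - f₀ q.2| + (|(p.1 : ℝ) * ((f₁ p.2 - f₁ q.2) - (f₀ p.2 - f₀ q.2))| +
          |((p.1 : ℝ) - q.1) * (f₁ q.2 - f₀ q.2)|) :=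
          (abs_add_le _ _).trans (add_le_add le_rfl (abs_add_le _ _))
      _ ≤ K₀ * dist p q + ((K₁ + K₀) * dist p q + |M| * dist p q) :=
          add_le_add e8 (add_le_add e6 e7)
      _ = (K₀ + (K₁ + K₀) + |M|) * dist p q := by ring
  obtain ⟨CI, hI⟩ := hIl
  have hD : Continuous fun p => F p - I p := hF.sub hI.continuous
  obtain ⟨D₁, C₁, hD1, hD1'⟩ := W196.exists_lip_real hD (half_pos hε)
  have hzero : ∀ p : unitInterval × X, F p = I p → soft (ε / 2) (D₁ p) = 0 := by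
    intro p hp
    have := hD1' p
    rw [hp, sub_self, sub_zero] at this
    exact soft_eq_zero this
  refine ⟨fun p => I p + soft (ε / 2) (D₁ p), _, hI.add ((soft_lip _).comp hD1), fun x => ?_,
    fun x => ?_, fun x hx t => ?_, fun p => ?_⟩
  · have e : F (0, x) = I (0, x) := by simp [I, hF0]
    show I (0, x) + soft (ε / 2) (D₁ (0, x)) = f₀ x
    rw [hzero _ e, add_zero, ← e, hF0]
  · have e : F (1, x) = I (1, x) := by simp [I, hF1]
    show I (1, x) + soft (ε / 2) (D₁ (1, x)) = f₁ x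
    rw [hzero _ e, add_zero, ← e, hF1]
  · have e0 : f₁ x = f₀ x := by rw [← hF1, hB x hx]
    have e : F (t, x) = I (t, x) := by simp [I, hB x hx, e0]
    show I (t, x) + soft (ε / 2) (D₁ (t, x)) = f₀ x
    rw [hzero _ e, add_zero, ← e, hB x hx]
  · have e1 := hD1' p
    have e2 := abs_soft_sub (x := D₁ p) (half_pos hε).le
    have e3 : I p + soft (ε / 2) (D₁ p) - F p =
        (soft (ε / 2) (D₁ p) - D₁ p) + (D₁ p - (F p - I p)) := by ring
    show |I p + soft (ε / 2) (D₁ p) - F p| ≤ ε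
    rw [e3]
    exact (abs_add_le _ _).trans (by linarith)

end Vale.Agent.P268.T.H366
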