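import Vale.Agent.P268.T.PlatesC
import Vale.Agent.P268.T.H291.Core

/-!
# P268, topological half, block B4d (SHAPE), part A: slopes of norms and inner products
-/

set_option linter.unusedSectionVars false

namespace Vale.Agent.P268.T.H366

open Set Filter Topology
open scoped RealInnerProductSpace
open Vale.Agent.P268.T.H291 (Sl exists_step)

variable {E : Type*} [NormedAddCommGroup E] [NormedSpace ℝ E]
  {T : Type*} [TopologicalSpace T] {V : Type*} [NormedAddCommGroup V] [InnerProductSpace ℝ V]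
  {s : Set T} {t₀ : T} {x₀ a : E}

/-- The increments of `W` along `a` are `l • b`, up to `K * l`. -/
def Inc (s : Set T) (W : T → E → V) (t₀ : T) (x₀ a : E) (b : V) (K : ℝ) : Prop :=
  ∃ U ∈ 𝓝 x₀, ∃ δ > 0, ∀ᶠ t in 𝓝[s] t₀, ∀ x ∈ U, ∀ l : ℝ, 0 ≤ l → l ≤ δ →
    ‖W t (x + l • a) - W t x - l • b‖ ≤ K * l

variable {W : T → E → V} {b : V} {K : ℝ}

/-- Slope of the norm, at a point where it is positive. -/
theorem Inc.sl_norm (h : Inc s W t₀ x₀ a b K) (hK : 0 ≤ K)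
    (cW : ContinuousWithinAt (fun p : T × E => W p.1 p.2) (s ×ˢ univ) (t₀, x₀))
    (hw : W t₀ x₀ ≠ 0) {σ : ℝ} (hσ : 0 < σ) :
    Sl s (fun t x => ‖W t x‖) t₀ x₀ a (⟪W t₀ x₀, b⟫ / ‖W t₀ x₀‖ - K - σ)
      (⟪W t₀ x₀, b⟫ / ‖W t₀ x₀‖ + K + σ) := by
  set z := W t₀ x₀ with hz
  have hzp : 0 < ‖z‖ := norm_pos_iff.mpr hw
  obtain ⟨ε, hε, hεσ⟩ : ∃ ε : ℝ, 0 < ε ∧ ε * (‖b‖ + K) ≤ σ := by
    refine ⟨σ / (‖b‖ + K + 1), by positivity, ?_⟩
    rw [div_mul_eq_mul_div, div_le_iff₀ (by positivity)]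
    nlinarith [norm_nonneg b]
  have h3 := norm_incr hw hε
  rw [nhds_prod_eq, eventually_prod_iff] at h3
  obtain ⟨pa, ha, pb, hb, hab⟩ := h3
  have h4 : ∀ᶠ p : T × E in 𝓝[s ×ˢ univ] (t₀, x₀), pa (W p.1 p.2) ∧ pb (W p.1 p.2) :=
    cW.eventually (ha.and hb)
  obtain ⟨U₁, hU₁, e1⟩ := ev_prod (Q := fun t x => pa (W t x) ∧ pb (W t x)) h4
  obtain ⟨U, hU, δ, hδ, e2⟩ := h
  obtain ⟨U₂, hU₂, δ', hδ', hsub, hst⟩ := exists_step hU₁ a
  refine ⟨U ∩ U₂, inter_mem hU hU₂, min δ δ', lt_min hδ hδ', ?_⟩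
  filter_upwards [e1, e2] with t g1 g2 x hx l hl0 hl
  have hl1 := hl.trans (min_le_left δ δ')
  have hl2 := hl.trans (min_le_right δ δ')
  have k1 := g2 x hx.1 l hl0 hl1
  have k2 := (g1 x (hsub hx.2)).1
  have k3 := (g1 (x + l • a) (hst x hx.2 l (by rwa [abs_of_nonneg hl0]))).2
  have k4 := hab k2 k3
  set w := W t x
  set w' := W t (x + l • a)
  have k5 : ‖w' - w‖ ≤ (‖b‖ + K) * l := by
    calc ‖w' - w‖ = ‖(w' - w - l • b) + l • b‖ := by rw [sub_add_cancel]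
      _ ≤ K * l + l * ‖b‖ := by
          refine (norm_add_le _ _).trans (add_le_add k1 ?_)
          rw [norm_smul, Real.norm_eq_abs, abs_of_nonneg hl0]
      _ = _ := by ring
  have k6 : ε * ‖w' - w‖ ≤ σ * l := by
    calc ε * ‖w' - w‖ ≤ ε * ((‖b‖ + K) * l) := mul_le_mul_of_nonneg_left k5 hε.le
      _ = (ε * (‖b‖ + K)) * l := by ring
      _ ≤ σ * l := mul_le_mul_of_nonneg_right hεσ hl0
  have k7 : |⟪z, w' - w⟫ / ‖z‖ - l * (⟪z, b⟫ / ‖z‖)| ≤ K * l := by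
    have e : ⟪z, w' - w⟫ / ‖z‖ - l * (⟪z, b⟫ / ‖z‖) = ⟪z, w' - w - l • b⟫ / ‖z‖ := by
      rw [inner_sub_right z (w' - w), real_inner_smul_right]
      ring
    rw [e, abs_div, abs_of_pos hzp, div_le_iff₀ hzp]
    calc |⟪z, w' - w - l • b⟫| ≤ ‖z‖ * ‖w' - w - l • b‖ := abs_real_inner_le_norm _ _
      _ ≤ ‖z‖ * (K * l) := mul_le_mul_of_nonneg_left k1 hzp.le
      _ = K * l * ‖z‖ := by ring
  rw [abs_le] at k4 k7
  constructor <;> nlinarith [k4.1, k4.2, k7.1, k7.2, k6]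

/-- Crude slope of the norm. -/
theorem Inc.sl_norm' (h : Inc s W t₀ x₀ a b K) :
    Sl s (fun t x => ‖W t x‖) t₀ x₀ a (-(‖b‖ + K)) (‖b‖ + K) := by
  obtain ⟨U, hU, δ, hδ, e2⟩ := h
  refine ⟨U, hU, δ, hδ, ?_⟩
  filter_upwards [e2] with t g2 x hx l hl0 hl
  have k1 := g2 x hx l hl0 hl
  set w := W t x
  set w' := W t (x + l • a)
  have k5 : ‖w' - w‖ ≤ (‖b‖ + K) * l := by
    calc ‖w' - w‖ = ‖(w' - w - l • b) + l • b‖ := by rw [sub_add_cancel]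
      _ ≤ K * l + l * ‖b‖ := by
          refine (norm_add_le _ _).trans (add_le_add k1 ?_)
          rw [norm_smul, Real.norm_eq_abs, abs_of_nonneg hl0]
      _ = _ := by ring
  have k6 := abs_norm_sub_norm_le w' w
  rw [abs_le] at k6
  constructor <;> linarith [k6.1, k6.2]

/-- Slope of an inner product with a fixed vector. -/
theorem Inc.sl_inner (h : Inc s W t₀ x₀ a b K) {e : V} (he : ‖e‖ ≤ 1) :
    Sl s (fun t x => ⟪W t x, e⟫) t₀ x₀ a (⟪b, e⟫ - K) (⟪b, e⟫ + K) := by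
  obtain ⟨U, hU, δ, hδ, e2⟩ := h
  refine ⟨U, hU, δ, hδ, ?_⟩
  filter_upwards [e2] with t g2 x hx l hl0 hl
  have k1 := g2 x hx l hl0 hl
  have k2 : |⟪W t (x + l • a) - W t x - l • b, e⟫| ≤ K * l :=
    (abs_real_inner_le_norm _ _).trans ((mul_le_of_le_one_right (norm_nonneg _) he).trans k1)
  rw [inner_sub_left, inner_sub_left, real_inner_smul_left, abs_le] at k2
  constructor <;> nlinarith [k2.1, k2.2]

/-- The second coordinate. -/
theorem inc_snd {S : Type*} [NormedAddCommGroup S] [NormedSpace ℝ S] {x₀ a : S × V} :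
    Inc s (fun _ (x : S × V) => x.2) t₀ x₀ a a.2 0 := by
  refine ⟨univ, univ_mem, 1, one_pos, Eventually.of_forall fun t x _ l _ _ => ?_⟩
  show ‖(x + l • a).2 - x.2 - l • a.2‖ ≤ 0 * l
  have e : (x + l • a).2 - x.2 - l • a.2 = 0 := by
    simp [Prod.snd_add, Prod.smul_snd]
  rw [e, norm_zero, zero_mul]

/-- Fibre coordinate minus a function of the base point. -/
theorem inc_sub {S : Type*} [NormedAddCommGroup S] [NormedSpace ℝ S] {x₀ a : S × V}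
    {c : T → S → V} {K : ℝ}
    (h : ∃ U ∈ 𝓝 x₀.1, ∃ δ > 0, ∀ᶠ t in 𝓝[s] t₀, ∀ y ∈ U, ∀ l : ℝ, 0 ≤ l → l ≤ δ →
      ‖c t (y + l • a.1) - c t y‖ ≤ K * l) :
    Inc s (fun t (x : S × V) => x.2 - c t x.1) t₀ x₀ a a.2 K := by
  obtain ⟨U, hU, δ, hδ, h⟩ := h
  refine ⟨{x | x.1 ∈ U}, continuous_fst.continuousAt.preimage_mem_nhds hU, δ, hδ, ?_⟩
  filter_upwards [h] with t ht x hx l hl0 hl
  have k := ht x.1 hx l hl0 hl
  have e : (x + l • a).2 - c t (x + l • a).1 - (x.2 - c t x.1) - l • a.2 =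
      -(c t (x.1 + l • a.1) - c t x.1) := by
    simp only [Prod.snd_add, Prod.smul_snd, Prod.fst_add, Prod.smul_fst]
    abel
  rw [e, norm_neg]
  exact k

theorem inc_sub_fibre {S : Type*} [NormedAddCommGroup S] [NormedSpace ℝ S] {x₀ : S × V} (b : V)
    (c : T → S → V) : Inc s (fun t (x : S × V) => x.2 - c t x.1) t₀ x₀ (0, b) b 0 := by
  refine inc_sub (a := ((0 : S), b)) ⟨univ, univ_mem, 1, one_pos,
    Eventually.of_forall fun t y _ l _ _ => ?_⟩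
  show ‖c t (y + l • (0 : S)) - c t y‖ ≤ 0 * l
  rw [smul_zero, add_zero, sub_self, norm_zero, zero_mul]

end Vale.Agent.P268.T.H366
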