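import Vale.Agent.P268.T.H293.ZipReg3

/-!
# P268, topological half: the crotch of the ZIP

At a point where the disks of `j` and `k` touch from outside, the ramp direction of `ZFam.cro`
moves both rims.
-/

set_option linter.unusedSectionVars false

namespace Vale.Agent.P268.T.Z293

open Set Filter Topology Metric

variable {T P V A : Type*} [TopologicalSpace T] [NormedAddCommGroup P] [NormedSpace ℝ P]
  [NormedAddCommGroup V] [InnerProductSpace ℝ V] [DecidableEq A] [Fintype A]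
  {s : Set T} {e : V} {ε R M : ℝ} {j k : A} {b ν : T → A → P → V} {G : T → ℝ × P → ℝ}

/-- Continuity at a point of functions on the base. -/
theorem zcro_data {f : T × P → V} (hf : ContinuousOn f (s ×ˢ closedBall 0 1)) {τ₀ : T}
    (hτ₀ : τ₀ ∈ s) {x₀ : ℝ × P} (hx : x₀ ≠ 0) :
    ContinuousWithinAt (fun p : T × (ℝ × P) => f (p.1, kap p.2)) (s ×ˢ univ) (τ₀, x₀) := by
  have h1 : ContinuousAt (fun p : T × (ℝ × P) => (p.1, kap p.2)) (τ₀, x₀) := by
    refine continuousAt_fst.prodMk ?_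
    exact ContinuousAt.comp (f := fun p : T × (ℝ × P) => p.2) (g := (kap : ℝ × P → P))
      (continuousAt_kap hx) continuousAt_snd
  exact ContinuousWithinAt.comp (g := f) (t := s ×ˢ closedBall (0 : P) 1)
    (hf (τ₀, kap x₀) ⟨hτ₀, kap_mem _⟩) h1.continuousWithinAt (fun p hp => ⟨hp.1, kap_mem _⟩)

theorem zcro_G (h : ZFam s e ε R M j k b ν G) {τ₀ : T} (hτ₀ : τ₀ ∈ s) {x₀ : ℝ × P}
    (hx : x₀ ≠ 0) :
    ContinuousWithinAt (fun p : T × (ℝ × P) => G p.1 p.2) (s ×ˢ univ) (τ₀, x₀) := by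
  have h1 := h.cG (τ₀, x₀) ⟨hτ₀, hx⟩
  refine h1.mono_of_mem_nhdsWithin ?_
  have h2 : {p : T × (ℝ × P) | p.2 ≠ 0} ∈ 𝓝 (τ₀, x₀) :=
    (isOpen_ne_fun continuous_snd continuous_const).mem_nhds hx
  filter_upwards [self_mem_nhdsWithin, mem_nhdsWithin_of_mem_nhds h2] with p hp hp'
  exact ⟨hp.1, hp'⟩

/-- **The crotch.** -/
theorem zcro (h : ZFam s e ε R M j k b ν G) {t₀ : T} (ht₀ : t₀ ∈ s) {x₀ : ℝ × P}
    (hx₀ : x₀ ≠ 0) (hp : ‖x₀.2‖ ≤ x₀.1) (hG1 : -1 < G t₀ x₀) (hG0 : G t₀ x₀ < 0) {w₀ : V}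
    (hw : w₀ ≠ 0) (hC : zC j k b G t₀ k x₀ - zC j k b G t₀ j x₀ = (2 : ℝ) • w₀) :
    ∃ (α : ℝ × P) (ω : V),
      TpDir s (fun τ y => zC j k b G τ j y) (fun _ y => ε * ‖y‖) t₀ x₀ w₀ α ω ∧
      TpDir s (fun τ y => zC j k b G τ k y) (fun _ y => ε * ‖y‖) t₀ x₀ (-w₀) α ω ∧
      (∃ U ∈ 𝓝 x₀, ∀ᶠ τ in 𝓝[s] t₀, ∀ y ∈ U, ∀ γ : ℝ, 0 ≤ γ → y + γ • α ∈ U →
        ν τ j (kap (y + γ • α)) = ν τ j (kap y) ∧ ν τ k (kap (y + γ • α)) = ν τ k (kap y)) ∧
      (‖x₀.2‖ = x₀.1 → ∃ d > 0, ∃ U ∈ 𝓝 x₀, ∀ y ∈ U, ∀ γ : ℝ, 0 ≤ γ → y + γ • α ∈ U →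
        d * γ ≤ (‖(y + γ • α).2‖ - |(y + γ • α).1|) - (‖y.2‖ - |y.1|)) := by
  obtain ⟨α, lam, q, L, d, hlam, hq, hd, hR, U, hU, hev⟩ := h.cro t₀ ht₀ x₀ hx₀ hp hG1 hG0
  have hA0 := h.adm t₀ ht₀
  have hε := hA0.hε
  have hg : 0 < ‖x₀‖ := norm_pos_iff.mpr hx₀
  have hwn : 0 < ‖w₀‖ := norm_pos_iff.mpr hw
  -- the difference of the centres
  set D : T → ℝ × P → V := fun τ y => b τ k (kap y) - b τ j (kap y) with hD
  have hθ0 : c01 (G t₀ x₀ + 1) = G t₀ x₀ + 1 := zr_c01_id (by linarith) (by linarith)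
  have hw2 : (2 : ℝ) • w₀ = (‖x₀‖ * (-G t₀ x₀)) • D t₀ x₀ := by
    rw [← hC]
    unfold zC
    rw [zcen_k, zcen_ne _ _ h.jk, hθ0, hD]
    module
  have hG0' : 0 < -G t₀ x₀ := by linarith
  have hDn : inner ℝ w₀ (D t₀ x₀) / ‖w₀‖ = ‖D t₀ x₀‖ := by
    have h1 : w₀ = ((‖x₀‖ * (-G t₀ x₀)) / 2) • D t₀ x₀ := by
      have h2 : (2 : ℝ)⁻¹ • ((2 : ℝ) • w₀) = w₀ := by
        rw [smul_smul]; norm_num
      rw [← h2, hw2, smul_smul]
      congr 1
      ring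
    have hc : 0 < (‖x₀‖ * (-G t₀ x₀)) / 2 := by positivity
    have hDp : 0 < ‖D t₀ x₀‖ := by
      rw [norm_pos_iff]
      rintro h3
      rw [h3, smul_zero] at h1
      exact hw h1
    have h4 : ‖w₀‖ = (‖x₀‖ * (-G t₀ x₀)) / 2 * ‖D t₀ x₀‖ := by
      conv_lhs => rw [h1]
      rw [norm_smul, Real.norm_of_nonneg hc.le]
    have h5 : inner ℝ w₀ (D t₀ x₀) = (‖x₀‖ * (-G t₀ x₀)) / 2 * (‖D t₀ x₀‖ * ‖D t₀ x₀‖) := by
      conv_lhs => rw [h1]
      rw [real_inner_smul_left, real_inner_self_eq_norm_sq]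
      ring
    rw [h5, h4, mul_div_mul_left _ _ hc.ne', mul_div_assoc, div_self hDp.ne', mul_one]
  have hD4 : 4 * ε ≤ ‖D t₀ x₀‖ := hA0.hd k j h.jk.symm _ (kap_mem x₀)
  -- constants
  set m₀ : ℝ := ‖x₀‖ * lam * (4 * ε) - 2 * (q * R) with hm₀
  have hm0 : 0 < m₀ := by
    have : R * q < 2 * ε * lam * ‖x₀‖ := hR
    rw [hm₀]
    linarith
  set μ : ℝ := q * R + m₀ / 4 with hμ
  set n : V := ‖w₀‖⁻¹ • w₀ with hn
  have hnn : ‖n‖ = 1 := by
    rw [hn, norm_smul, norm_inv, norm_norm, inv_mul_cancel₀ hwn.ne']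
  have hin : ∀ v : V, inner ℝ w₀ v / ‖w₀‖ = inner ℝ n v := by
    intro v
    rw [hn, real_inner_smul_left]
    field_simp
  have hin' : ∀ v : V, inner ℝ (-w₀) v / ‖-w₀‖ = -inner ℝ n v := by
    intro v
    rw [inner_neg_left, norm_neg, neg_div, hin]
  have habs : ∀ v : V, |inner ℝ n v| ≤ ‖v‖ := fun v => by
    have := abs_real_inner_le_norm n v
    rwa [hnn, one_mul] at this
  -- continuity
  have cD : ContinuousWithinAt (fun p : T × (ℝ × P) => ‖p.2‖ * lam * inner ℝ n (D p.1 p.2))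
      (s ×ˢ univ) (t₀, x₀) := by
    have c1 := zcro_data (f := fun q => b q.1 k q.2) (h.fam.cb k) ht₀ hx₀
    have c2 := zcro_data (f := fun q => b q.1 j q.2) (h.fam.cb j) ht₀ hx₀
    have c3 : ContinuousWithinAt (fun p : T × (ℝ × P) => ‖p.2‖) (s ×ˢ univ) (t₀, x₀) := by
      fun_prop
    exact (c3.mul continuousWithinAt_const).mul
      (continuousWithinAt_const.inner (𝕜 := ℝ) (c1.sub c2))
  have c0 : ‖x₀‖ * lam * (4 * ε) - m₀ / 4 < ‖x₀‖ * lam * inner ℝ n (D t₀ x₀) := by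
    rw [← hin, hDn]
    have : ‖x₀‖ * lam * (4 * ε) ≤ ‖x₀‖ * lam * ‖D t₀ x₀‖ :=
      mul_le_mul_of_nonneg_left hD4 (by positivity)
    linarith
  have cG := zcro_G h ht₀ hx₀
  have e1 := cD.eventually (lt_mem_nhds c0)
  have e2 := cG.eventually (lt_mem_nhds hG1)
  have e3 := cG.eventually (gt_mem_nhds hG0)
  have e4 : ∀ᶠ p : T × (ℝ × P) in 𝓝[s ×ˢ univ] (t₀, x₀), ‖p.2‖ < 2 * ‖x₀‖ := by
    have c3 : ContinuousWithinAt (fun p : T × (ℝ × P) => ‖p.2‖) (s ×ˢ univ) (t₀, x₀) := by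
      fun_prop
    exact c3.eventually (gt_mem_nhds (by show ‖x₀‖ < 2 * ‖x₀‖; linarith))
  obtain ⟨W, hW, hevW⟩ := ev_prod (Q := fun τ y =>
    ‖x₀‖ * lam * (4 * ε) - m₀ / 4 < ‖y‖ * lam * inner ℝ n (D τ y) ∧ -1 < G τ y ∧ G τ y < 0 ∧
      ‖y‖ < 2 * ‖x₀‖) (e1.and (e2.and (e3.and e4)))
  have hR0 : 0 < R := by linarith [hA0.hR]
  refine ⟨α, -(μ • n), ?_, ?_, ?_, ?_⟩
  · -- the sheet `j`
    refine ⟨m₀ / 4, q * R + ε * q, by linarith, U, hU, ?_⟩
    filter_upwards [hev, self_mem_nhdsWithin] with τ f1 hτ y hy γ hγ hyγ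
    obtain ⟨-, -, ⟨g1, -, -, -⟩, g2, -⟩ := f1 y hy γ hγ hyγ
    have hA := h.adm τ hτ
    have hb := hA.hb j (kap y) (kap_mem y)
    have hCj : zC j k b G τ j (y + γ • α) - zC j k b G τ j y =
        (‖y + γ • α‖ - ‖y‖) • b τ j (kap y) := by
      unfold zC
      rw [zcen_ne _ _ h.jk, zcen_ne _ _ h.jk, g1, sub_smul]
    have hgq := abs_le.mp g2
    have k1 : |(‖y + γ • α‖ - ‖y‖) * inner ℝ n (b τ j (kap y))| ≤ q * γ * (R - 2 * ε) := by
      rw [abs_mul]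
      exact mul_le_mul g2 ((habs _).trans (by linarith)) (abs_nonneg _) (by positivity)
    refine ⟨?_, ?_, ?_⟩
    · rw [hCj, hin, hin, real_inner_smul_right, inner_neg_right, real_inner_smul_right,
        real_inner_self_eq_norm_sq, hnn]
      have k2 := (abs_le.mp k1).1
      have k3 : -(ε * (q * γ)) ≤ ε * ‖y + γ • α‖ - ε * ‖y‖ := by
        rw [← mul_sub]
        have := mul_le_mul_of_nonneg_left hgq.1 hε.le
        linarith
      have k4 : 0 ≤ ε * (q * γ) := by positivity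
      rw [hμ]
      linarith
    · rw [hCj, norm_smul, Real.norm_eq_abs]
      have k5 : |‖y + γ • α‖ - ‖y‖| * ‖b τ j (kap y)‖ ≤ q * γ * R :=
        mul_le_mul g2 (by linarith) (norm_nonneg _) (by positivity)
      have k6 : 0 ≤ ε * q * γ := by positivity
      linarith
    · rw [← mul_sub, abs_mul, abs_of_pos hε]
      have k5 : ε * |‖y + γ • α‖ - ‖y‖| ≤ ε * (q * γ) := mul_le_mul_of_nonneg_left g2 hε.le
      have k6 : 0 ≤ q * R * γ := by positivity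
      linarith
  · -- the sheet `k`
    refine ⟨m₀ / 4, 4 * ‖x₀‖ * |L| * R + q * R + ε * q, by linarith, U ∩ W, inter_mem hU hW, ?_⟩
    filter_upwards [hev, hevW, self_mem_nhdsWithin] with τ f1 f2 hτ y hy γ hγ hyγ
    obtain ⟨l1, l2, ⟨g1, g1', -, -⟩, g2, -⟩ := f1 y hy.1 γ hγ hyγ.1
    obtain ⟨-, a2, a3, -⟩ := f2 y hy.2
    obtain ⟨a1', a2', a3', a4'⟩ := f2 _ hyγ.2
    have hA := h.adm τ hτ
    set θ : ℝ := G τ y + 1 with hθ
    set θ' : ℝ := G τ (y + γ • α) + 1 with hθ'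
    have t1 : c01 (G τ y + 1) = θ := zr_c01_id (by linarith) (by linarith)
    have t2 : c01 (G τ (y + γ • α) + 1) = θ' := zr_c01_id (by linarith) (by linarith)
    set z : V := zcen j k (b τ) θ k (kap y) with hz
    have hzn : ‖z‖ + 2 * ε < R := zr_norm_cen h hτ k (kap_mem y) (by linarith) (by linarith)
    have hDy : D τ (y + γ • α) = D τ y := by
      show b τ k _ - b τ j _ = b τ k _ - b τ j _
      rw [g1, g1']
    have hCk : zC j k b G τ k (y + γ • α) - zC j k b G τ k y =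
        (‖y + γ • α‖ - ‖y‖) • z - (‖y + γ • α‖ * (θ' - θ)) • D τ y := by
      unfold zC
      rw [t1, t2, hz, zcen_k, zcen_k, g1, g1', hD]
      module
    have hgq := abs_le.mp g2
    have k1 : |(‖y + γ • α‖ - ‖y‖) * inner ℝ n z| ≤ q * γ * (R - 2 * ε) := by
      rw [abs_mul]
      exact mul_le_mul g2 ((habs _).trans (by linarith)) (abs_nonneg _) (by positivity)
    have hΔ : θ' - θ = G τ (y + γ • α) - G τ y := by rw [hθ, hθ']; ring
    have hnD : 0 < ‖y + γ • α‖ * inner ℝ n (D τ y) := by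
      rw [hDy] at a1'
      have : 0 < ‖x₀‖ * lam * (4 * ε) - m₀ / 4 := by
        have h9 : 0 ≤ q * R := by positivity
        rw [hm₀]
        have : 0 < ‖x₀‖ * lam * (4 * ε) := by positivity
        linarith
      have h8 : 0 < lam * (‖y + γ • α‖ * inner ℝ n (D τ y)) := by linarith
      exact (mul_pos_iff_of_pos_left hlam).mp h8
    refine ⟨?_, ?_, ?_⟩
    · rw [hin', hin', hCk, inner_sub_right, real_inner_smul_right, real_inner_smul_right,
        inner_neg_right, real_inner_smul_right, real_inner_self_eq_norm_sq, hnn]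
      have k2 := (abs_le.mp k1).2
      have k3 : -(ε * (q * γ)) ≤ ε * ‖y + γ • α‖ - ε * ‖y‖ := by
        rw [← mul_sub]
        have := mul_le_mul_of_nonneg_left hgq.1 hε.le
        linarith
      have k4 : 0 ≤ ε * (q * γ) := by positivity
      have k5 : lam * γ * (‖y + γ • α‖ * inner ℝ n (D τ y)) ≤
          (θ' - θ) * (‖y + γ • α‖ * inner ℝ n (D τ y)) :=
        mul_le_mul_of_nonneg_right (by rw [hΔ]; exact l1) hnD.le
      have k6 : (‖x₀‖ * lam * (4 * ε) - m₀ / 4) * γ ≤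
          lam * γ * (‖y + γ • α‖ * inner ℝ n (D τ y)) := by
        rw [hDy] at a1'
        have := mul_le_mul_of_nonneg_right a1'.le hγ
        linarith
      have k7 : (‖x₀‖ * lam * (4 * ε) - m₀ / 4) * γ = (2 * (q * R) + 3 * (m₀ / 4)) * γ := by
        rw [hm₀]; ring
      have k8 : 0 ≤ m₀ * γ := by positivity
      rw [hμ]
      linarith
    · rw [hCk]
      refine (norm_sub_le _ _).trans ?_
      rw [norm_smul, norm_smul, Real.norm_eq_abs, Real.norm_eq_abs, abs_mul, abs_norm]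
      have k5 : |‖y + γ • α‖ - ‖y‖| * ‖z‖ ≤ q * γ * R :=
        mul_le_mul g2 (by linarith) (norm_nonneg _) (by positivity)
      have k6 : 0 ≤ ε * q * γ := by positivity
      have k7 : ‖D τ y‖ ≤ 2 * R := by
        refine (norm_sub_le _ _).trans ?_
        have := hA.hb k (kap y) (kap_mem y)
        have := hA.hb j (kap y) (kap_mem y)
        linarith
      have k8 : |θ' - θ| ≤ |L| * γ := by
        rw [hΔ, abs_of_nonneg (by have := mul_nonneg hlam.le hγ; linarith)]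
        exact l2.trans (mul_le_mul_of_nonneg_right (le_abs_self L) hγ)
      have k9 : ‖y + γ • α‖ * |θ' - θ| * ‖D τ y‖ ≤ 2 * ‖x₀‖ * (|L| * γ) * (2 * R) := by
        refine mul_le_mul (mul_le_mul a4'.le k8 (abs_nonneg _) (by positivity)) k7
          (norm_nonneg _) (by positivity)
      linarith
    · rw [← mul_sub, abs_mul, abs_of_pos hε]
      have k5 : ε * |‖y + γ • α‖ - ‖y‖| ≤ ε * (q * γ) := mul_le_mul_of_nonneg_left g2 hε.le
      have k6 : 0 ≤ q * R * γ := by positivity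
      have k7 : 0 ≤ 4 * ‖x₀‖ * |L| * R * γ := by positivity
      linarith
  · refine ⟨U, hU, ?_⟩
    filter_upwards [hev] with τ f1 y hy γ hγ hyγ
    obtain ⟨-, -, ⟨-, -, g3, g4⟩, -, -⟩ := f1 y hy γ hγ hyγ
    exact ⟨g3, g4⟩
  · intro hf
    have hne : (𝓝[s] t₀).NeBot := mem_closure_iff_nhdsWithin_neBot.mp (subset_closure ht₀)
    obtain ⟨τ, hτ⟩ := hev.exists
    refine ⟨d, hd, U, hU, fun y hy γ hγ hyγ => ?_⟩
    exact (hτ y hy γ hγ hyγ).2.2.2.2 hf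

end Vale.Agent.P268.T.Z293
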